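import Mathlib

/-!
# P155, block D2 (part 1) : Newton interpolation with remainder in several variables

`newton_approx` : if all mixed differences of order `l ≤ d (J + 1)` of a function on a box of side
`L` in `ℤ^d` are at most `K ρ^l`, with `L ρ ≤ 1 / 2`, then the function is within
`(2 ^ d - 1) K (L ρ)^(J+1)` of a polynomial of degree at most `J` in each variable.
-/

namespace Vale.Agent.P155.G

open Finset

/-- Forward difference of a function on `ℤ`. -/
def fd (f : ℤ → ℝ) (a : ℤ) : ℝ := f (a + 1) - f a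

lemma fd_iter_shift (f : ℤ → ℝ) (s : ℤ) (j : ℕ) (a : ℤ) :
    (fd^[j] (fun b => f (b + s))) a = (fd^[j] f) (a + s) := by
  induction j generalizing a with
  | zero => rfl
  | succ j ih =>
    rw [Function.iterate_succ_apply', Function.iterate_succ_apply', fd, fd, ih, ih]
    have : a + 1 + s = a + s + 1 := by ring
    rw [this]

/-- One variable Newton formula with remainder. -/
lemma newton_one (k : ℕ) : ∀ (J : ℕ) (f : ℤ → ℝ) (S : ℝ),
    (∀ i : ℕ, i + J ≤ k → |(fd^[J] f) i| ≤ S) →
    |f k - ∑ j ∈ range J, (k.choose j : ℝ) * (fd^[j] f) 0| ≤ (k.choose J : ℝ) * S := by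
  induction k with
  | zero =>
    intro J f S hS
    cases J with
    | zero =>
      have := hS 0 (by simp)
      simpa using this
    | succ J =>
      rw [Finset.sum_range_succ']
      simp
  | succ k ih =>
    intro J f S hS
    cases J with
    | zero =>
      have := hS (k + 1) (by omega)
      simpa using this
    | succ J =>
      have h1 := ih (J + 1) f S (fun i hi => hS i (by omega))
      have h2 := ih J (fd f) S (fun i hi => by
        have := hS i (by omega)
        rwa [Function.iterate_succ_apply] at this)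
      have e : f ((k + 1 : ℕ) : ℤ) - ∑ j ∈ range (J + 1), ((k + 1).choose j : ℝ) * (fd^[j] f) 0
          = (f k - ∑ j ∈ range (J + 1), (k.choose j : ℝ) * (fd^[j] f) 0)
            + (fd f k - ∑ j ∈ range J, (k.choose j : ℝ) * (fd^[j] (fd f)) 0) := by
        rw [Finset.sum_range_succ' _ J, Finset.sum_range_succ' _ J]
        have : ∀ j, ((k + 1).choose (j + 1) : ℝ) * (fd^[j + 1] f) 0
            = (k.choose (j + 1) : ℝ) * (fd^[j + 1] f) 0 + (k.choose j : ℝ) * (fd^[j] (fd f)) 0 := by
          intro j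
          rw [Nat.choose_succ_succ, Function.iterate_succ_apply]
          push_cast
          ring
        simp only [this, Finset.sum_add_distrib]
        simp only [fd]
        push_cast
        simp
        ring
      rw [e]
      refine (abs_add_le _ _).trans ?_
      rw [Nat.choose_succ_succ]
      push_cast
      linarith

/-- Newton formula with remainder at a general base point. -/
lemma newton_base (f : ℤ → ℝ) (x0 : ℤ) (k J : ℕ) (S : ℝ)
    (hS : ∀ i : ℕ, i + J ≤ k → |(fd^[J] f) (x0 + i)| ≤ S) :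
    |f (x0 + k) - ∑ j ∈ range J, (k.choose j : ℝ) * (fd^[j] f) x0| ≤ (k.choose J : ℝ) * S := by
  have := newton_one k J (fun b => f (b + x0)) S (by
    intro i hi
    rw [fd_iter_shift, add_comm]
    exact hS i hi)
  simp only [fd_iter_shift, zero_add] at this
  rwa [add_comm (k : ℤ)] at this

/-! ### Several variables -/

/-- Forward difference in the coordinate `i`. -/
def Dc {d : ℕ} (i : Fin d) (f : (Fin d → ℤ) → ℝ) (z : Fin d → ℤ) : ℝ :=
  f (z + Pi.single i 1) - f z

/-- Iterated differences along a word of directions. -/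
def Dw {d : ℕ} : List (Fin d) → ((Fin d → ℤ) → ℝ) → (Fin d → ℤ) → ℝ
  | [], f => f
  | i :: w, f => Dc i (Dw w f)

lemma Dw_append {d : ℕ} (w w' : List (Fin d)) (f : (Fin d → ℤ) → ℝ) :
    Dw (w ++ w') f = Dw w (Dw w' f) := by
  induction w with
  | nil => rfl
  | cons i w ih => simp only [List.cons_append, Dw, ih]

lemma Dw_replicate {d : ℕ} (i : Fin d) (j : ℕ) (f : (Fin d → ℤ) → ℝ) :
    Dw (List.replicate j i) f = (Dc i)^[j] f := by
  induction j with
  | zero => rfl
  | succ j ih => rw [List.replicate_succ, Dw, ih, Function.iterate_succ_apply']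

lemma cons_add_single_succ {d : ℕ} (a : ℤ) (z : Fin d → ℤ) (i : Fin d) :
    (Fin.cons a z : Fin (d + 1) → ℤ) + Pi.single i.succ 1
      = (Fin.cons a (z + Pi.single i 1) : Fin (d + 1) → ℤ) := by
  funext j
  refine Fin.cases ?_ (fun j => ?_) j
  · simp
  · simp only [Pi.add_apply, Fin.cons_succ]
    congr 1
    by_cases h : j = i
    · subst h; simp
    · rw [Pi.single_eq_of_ne h, Pi.single_eq_of_ne (fun h' => h (Fin.succ_injective _ h'))]

lemma cons_add_single_zero {d : ℕ} (a : ℤ) (z : Fin d → ℤ) :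
    (Fin.cons a z : Fin (d + 1) → ℤ) + Pi.single 0 1 = (Fin.cons (a + 1) z : Fin (d + 1) → ℤ) := by
  funext j
  refine Fin.cases ?_ (fun j => ?_) j
  · simp
  · simp

lemma Dw_map_succ {d : ℕ} (w : List (Fin d)) (h : (Fin (d + 1) → ℤ) → ℝ) (a : ℤ) :
    ∀ z : Fin d → ℤ, Dw (w.map Fin.succ) h (Fin.cons a z) = Dw w (fun z => h (Fin.cons a z)) z := by
  induction w with
  | nil => intro z; rfl
  | cons i w ih =>
    intro z
    rw [List.map_cons, Dw, Dw, Dc, Dc, cons_add_single_succ, ih, ih]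

lemma Dc_zero_iter {d : ℕ} (j : ℕ) (f : (Fin (d + 1) → ℤ) → ℝ) (a : ℤ) (z : Fin d → ℤ) :
    ((Dc 0)^[j] f) (Fin.cons a z) = (fd^[j] (fun b => f (Fin.cons b z))) a := by
  induction j generalizing a with
  | zero => rfl
  | succ j ih =>
    rw [Function.iterate_succ_apply', Function.iterate_succ_apply', Dc, fd, cons_add_single_zero,
      ih, ih]

/-- The polynomial with coefficients `c`, of degree at most `J` in each variable. -/
noncomputable def PC {d J : ℕ} (c : (Fin d → Fin (J + 1)) → ℝ) (y : Fin d → ℝ) : ℝ :=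
  ∑ a, c a * ∏ i, y i ^ (a i : ℕ)

/-- Binomial coefficients are polynomials in any affine coordinate. -/
lemma choose_poly (J j : ℕ) (hj : j ≤ J) (t s : ℝ) (ht : t ≠ 0) :
    ∃ b : Fin (J + 1) → ℝ, ∀ k : ℕ, (k.choose j : ℝ) = ∑ i, b i * (((k : ℝ) - s) / t) ^ (i : ℕ) := by
  set p : Polynomial ℝ := (Polynomial.C ((j.factorial : ℝ)⁻¹) * descPochhammer ℝ j).comp
    (Polynomial.C t * Polynomial.X + Polynomial.C s) with hp
  have hdeg : p.natDegree < J + 1 := by
    have h1 : p.natDegree ≤ (Polynomial.C ((j.factorial : ℝ)⁻¹) * descPochhammer ℝ j).natDegree *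
        (Polynomial.C t * Polynomial.X + Polynomial.C s).natDegree := Polynomial.natDegree_comp_le
    have h2 : (Polynomial.C ((j.factorial : ℝ)⁻¹) * descPochhammer ℝ j).natDegree ≤ j := by
      refine (Polynomial.natDegree_C_mul_le _ _).trans ?_
      exact (descPochhammer_natDegree ℝ j).le
    have h3 : (Polynomial.C t * Polynomial.X + Polynomial.C s).natDegree ≤ 1 :=
      Polynomial.natDegree_linear_le
    have : p.natDegree ≤ j * 1 := h1.trans (Nat.mul_le_mul h2 h3)
    omega
  refine ⟨fun i => p.coeff i, fun k => ?_⟩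
  have h := Polynomial.eval_eq_sum_range' hdeg (((k : ℝ) - s) / t)
  rw [← Fin.sum_univ_eq_sum_range (fun i => p.coeff i * (((k : ℝ) - s) / t) ^ i)] at h
  rw [← h, hp, Polynomial.eval_comp]
  simp only [Polynomial.eval_add, Polynomial.eval_mul, Polynomial.eval_C, Polynomial.eval_X]
  have e : t * (((k : ℝ) - s) / t) + s = k := by field_simp; ring
  rw [e, descPochhammer_eval_eq_descFactorial, Nat.choose_eq_descFactorial_div_factorial,
    Nat.cast_div (Nat.factorial_dvd_descFactorial _ _) (by positivity)]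
  field_simp

lemma PC_cons {d J : ℕ} (c : (Fin (d + 1) → Fin (J + 1)) → ℝ) (y0 : ℝ) (y : Fin d → ℝ) :
    PC c (Fin.cons y0 y) = ∑ i : Fin (J + 1), y0 ^ (i : ℕ) * PC (fun a => c (Fin.cons i a)) y := by
  unfold PC
  rw [← (Fin.consEquiv (fun _ => Fin (J + 1))).sum_comp, Fintype.sum_prod_type]
  refine Finset.sum_congr rfl fun i _ => ?_
  rw [Finset.mul_sum]
  refine Finset.sum_congr rfl fun a _ => ?_
  have e : (Fin.consEquiv fun _ => Fin (J + 1)) (i, a) = Fin.cons i a := rfl
  rw [e, Fin.prod_univ_succ]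
  simp only [Fin.cons_zero, Fin.cons_succ]
  ring

lemma PC_sum {d J m : ℕ} (b : Fin m → ℝ) (c : Fin m → (Fin d → Fin (J + 1)) → ℝ) (y : Fin d → ℝ) :
    PC (fun a => ∑ j, b j * c j a) y = ∑ j, b j * PC (c j) y := by
  unfold PC
  simp only [Finset.sum_mul, Finset.mul_sum]
  rw [Finset.sum_comm]
  refine Finset.sum_congr rfl fun j _ => Finset.sum_congr rfl fun a _ => ?_
  ring

/-- **Newton approximation in several variables.** -/
theorem newton_approx (J L : ℕ) (ρ t : ℝ) (hρ : 0 ≤ ρ) (hL : L * ρ ≤ 1 / 2) (ht : t ≠ 0) :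
    ∀ (d : ℕ) (f : (Fin d → ℤ) → ℝ) (x0 : Fin d → ℤ) (ξ : Fin d → ℝ) (K : ℝ), 0 ≤ K →
    (∀ w : List (Fin d), w.length ≤ d * (J + 1) → ∀ z : Fin d → ℤ, (∀ i, x0 i ≤ z i) →
      (∀ i, z i ≤ x0 i + L) → |Dw w f z| ≤ K * ρ ^ w.length) →
    ∃ c : (Fin d → Fin (J + 1)) → ℝ, ∀ z : Fin d → ℤ, (∀ i, x0 i ≤ z i) →
      (∀ i, z i ≤ x0 i + L) →
      |f z - PC c (fun i => ((z i : ℝ) - ξ i) / t)| ≤ (2 ^ d - 1) * K * (L * ρ) ^ (J + 1) := by
  intro d
  induction d with
  | zero =>
    intro f x0 ξ K hK hB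
    refine ⟨fun _ => f x0, fun z _ _ => ?_⟩
    have : z = x0 := Subsingleton.elim _ _
    rw [this]
    simp [PC]
  | succ d ih =>
    intro f x0 ξ K hK hB
    have hLρ : 0 ≤ (L : ℝ) * ρ := by positivity
    set x0' : Fin d → ℤ := fun i => x0 i.succ with hx0'
    have hcons : ∀ a : ℤ, ∀ z : Fin d → ℤ, x0 0 ≤ a → a ≤ x0 0 + L → (∀ i, x0' i ≤ z i) →
        (∀ i, z i ≤ x0' i + L) → (∀ i, x0 i ≤ (Fin.cons a z : Fin (d + 1) → ℤ) i) ∧
        (∀ i, (Fin.cons a z : Fin (d + 1) → ℤ) i ≤ x0 i + L) := by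
      intro a z h1 h2 h3 h4
      constructor
      · intro i
        refine Fin.cases ?_ (fun i => ?_) i
        · simpa using h1
        · simpa using h3 i
      · intro i
        refine Fin.cases ?_ (fun i => ?_) i
        · simpa using h2
        · simpa using h4 i
    -- the coefficients in the first variable
    have hex : ∀ j : Fin (J + 1), ∃ c : (Fin d → Fin (J + 1)) → ℝ, ∀ z : Fin d → ℤ,
        (∀ i, x0' i ≤ z i) → (∀ i, z i ≤ x0' i + L) →
        |((Dc 0)^[(j : ℕ)] f) (Fin.cons (x0 0) z) - PC c (fun i => ((z i : ℝ) - ξ i.succ) / t)| ≤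
          (2 ^ d - 1) * (K * ρ ^ (j : ℕ)) * (L * ρ) ^ (J + 1) := by
      intro j
      apply ih (fun z => ((Dc 0)^[(j : ℕ)] f) (Fin.cons (x0 0) z)) x0' (fun i => ξ i.succ)
        (K * ρ ^ (j : ℕ)) (by positivity)
      intro w hw z h1 h2
      rw [← Dw_map_succ, ← Dw_replicate, ← Dw_append]
      have hc := hcons (x0 0) z le_rfl (by simp) h1 h2
      have := hB (w.map Fin.succ ++ List.replicate j 0) (by
        have := j.2
        simp only [List.length_append, List.length_map, List.length_replicate]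
        nlinarith) _ hc.1 hc.2
      refine this.trans (le_of_eq ?_)
      simp only [List.length_append, List.length_map, List.length_replicate]
      rw [pow_add]
      ring
    choose c hc using hex
    have hch : ∀ j : Fin (J + 1), ∃ b : Fin (J + 1) → ℝ, ∀ k : ℕ, (k.choose j : ℝ)
        = ∑ i, b i * (((k : ℝ) - (ξ 0 - x0 0)) / t) ^ (i : ℕ) := fun j =>
      choose_poly J j (by have := j.2; omega) t _ ht
    choose b hb using hch
    refine ⟨fun a => ∑ j, b j (a 0) * c j (Fin.tail a), fun z h1 h2 => ?_⟩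
    obtain ⟨k, hk⟩ : ∃ k : ℕ, z 0 = x0 0 + k := ⟨(z 0 - x0 0).toNat, by have := h1 0; omega⟩
    have hkL : k ≤ L := by have := h2 0; omega
    have hz : z = Fin.cons (x0 0 + k) (Fin.tail z) := by
      rw [← hk]; exact (Fin.cons_self_tail z).symm
    have ht1 : ∀ i, x0' i ≤ Fin.tail z i := fun i => h1 i.succ
    have ht2 : ∀ i, Fin.tail z i ≤ x0' i + L := fun i => h2 i.succ
    -- evaluate the polynomial
    have hPC : PC (fun a => ∑ j, b j (a 0) * c j (Fin.tail a))
        (fun i => ((z i : ℝ) - ξ i) / t) =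
        ∑ j : Fin (J + 1), (k.choose j : ℝ) * PC (c j)
          (fun i => (((Fin.tail z) i : ℝ) - ξ i.succ) / t) := by
      have e1 : (fun i => ((z i : ℝ) - ξ i) / t) = (Fin.cons (((z 0 : ℝ) - ξ 0) / t)
          (fun i : Fin d => (((Fin.tail z) i : ℝ) - ξ i.succ) / t) : Fin (d + 1) → ℝ) := by
        funext i
        refine Fin.cases ?_ (fun i => ?_) i
        · simp
        · simp [Fin.tail]
      rw [e1, PC_cons]
      simp only [Fin.cons_zero, Fin.tail_cons]
      have e2 : ∀ i : Fin (J + 1), (((z 0 : ℝ) - ξ 0) / t) ^ (i : ℕ) *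
          PC (fun a : Fin d → Fin (J + 1) => ∑ j, b j i * c j a)
            (fun i => (((Fin.tail z) i : ℝ) - ξ i.succ) / t)
          = ∑ j, (b j i * (((k : ℝ) - (ξ 0 - x0 0)) / t) ^ (i : ℕ)) * PC (c j)
            (fun i => (((Fin.tail z) i : ℝ) - ξ i.succ) / t) := by
        intro i
        rw [PC_sum (fun j => b j i), Finset.mul_sum]
        refine Finset.sum_congr rfl fun j _ => ?_
        have : ((z 0 : ℝ) - ξ 0) = (k : ℝ) - (ξ 0 - x0 0) := by
          rw [hk]; push_cast; ring
        rw [this]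
        ring
      rw [Finset.sum_congr rfl fun i _ => e2 i, Finset.sum_comm]
      refine Finset.sum_congr rfl fun j _ => ?_
      rw [hb j k, Finset.sum_mul]
    rw [hPC]
    -- one variable estimate
    have hone := newton_base (fun a => f (Fin.cons a (Fin.tail z))) (x0 0) k (J + 1)
      (K * ρ ^ (J + 1)) (by
        intro i hi
        rw [← Dc_zero_iter, ← Dw_replicate]
        have hcc := hcons (x0 0 + i) (Fin.tail z) (by simp) (by
          have : i ≤ L := by omega
          simpa using this) ht1 ht2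
        have := hB (List.replicate (J + 1) 0) (by
          rw [List.length_replicate]; nlinarith) _ hcc.1 hcc.2
        simpa using this)
    rw [← hz] at hone
    simp only [← Dc_zero_iter] at hone
    rw [← Fin.sum_univ_eq_sum_range
      (fun j => (k.choose j : ℝ) * ((Dc 0)^[j] f) (Fin.cons (x0 0) (Fin.tail z)))] at hone
    have hkc : ∀ j : ℕ, (k.choose j : ℝ) ≤ (L : ℝ) ^ j := by
      intro j
      calc (k.choose j : ℝ) ≤ (k : ℝ) ^ j := by exact_mod_cast Nat.choose_le_pow k j
        _ ≤ (L : ℝ) ^ j := by gcongr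
    have hfirst : (k.choose (J + 1) : ℝ) * (K * ρ ^ (J + 1)) ≤ K * (L * ρ) ^ (J + 1) := by
      calc (k.choose (J + 1) : ℝ) * (K * ρ ^ (J + 1)) ≤ (L : ℝ) ^ (J + 1) * (K * ρ ^ (J + 1)) := by
            gcongr; exact hkc _
        _ = _ := by rw [mul_pow]; ring
    have h2d : (0 : ℝ) ≤ 2 ^ d - 1 := by
      have : (1 : ℝ) ≤ 2 ^ d := one_le_pow₀ (by norm_num)
      linarith
    have hgeo : ∑ j : Fin (J + 1), ((L : ℝ) * ρ) ^ (j : ℕ) ≤ 2 := by
      rw [Fin.sum_univ_eq_sum_range (fun j => ((L : ℝ) * ρ) ^ j)]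
      calc ∑ j ∈ range (J + 1), ((L : ℝ) * ρ) ^ j ≤ ∑ j ∈ range (J + 1), (1 / 2 : ℝ) ^ j :=
            Finset.sum_le_sum fun j _ => by gcongr
        _ ≤ 2 := by
            have := Summable.sum_le_tsum (range (J + 1)) (fun i _ => by positivity)
              (summable_geometric_two)
            rwa [tsum_geometric_two] at this
    have hsecond : |∑ j : Fin (J + 1), (k.choose j : ℝ) *
          ((Dc 0)^[(j : ℕ)] f) (Fin.cons (x0 0) (Fin.tail z))
        - ∑ j : Fin (J + 1), (k.choose j : ℝ) * PC (c j)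
          (fun i => (((Fin.tail z) i : ℝ) - ξ i.succ) / t)|
        ≤ 2 * ((2 ^ d - 1) * K * (L * ρ) ^ (J + 1)) := by
      rw [← Finset.sum_sub_distrib]
      refine (Finset.abs_sum_le_sum_abs _ _).trans ?_
      calc ∑ j : Fin (J + 1), |(k.choose j : ℝ) * ((Dc 0)^[(j : ℕ)] f) (Fin.cons (x0 0) (Fin.tail z))
            - (k.choose j : ℝ) * PC (c j) (fun i => (((Fin.tail z) i : ℝ) - ξ i.succ) / t)|
          ≤ ∑ j : Fin (J + 1), ((L : ℝ) * ρ) ^ (j : ℕ) * ((2 ^ d - 1) * K * (L * ρ) ^ (J + 1)) := by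
            refine Finset.sum_le_sum fun j _ => ?_
            rw [← mul_sub, abs_mul, Nat.abs_cast]
            calc (k.choose j : ℝ) * |((Dc 0)^[(j : ℕ)] f) (Fin.cons (x0 0) (Fin.tail z))
                  - PC (c j) (fun i => (((Fin.tail z) i : ℝ) - ξ i.succ) / t)|
                ≤ (L : ℝ) ^ (j : ℕ) * ((2 ^ d - 1) * (K * ρ ^ (j : ℕ)) * (L * ρ) ^ (J + 1)) := by
                  gcongr
                  · exact hkc _
                  · exact hc j _ ht1 ht2
              _ = _ := by rw [mul_pow]; ring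
        _ = (∑ j : Fin (J + 1), ((L : ℝ) * ρ) ^ (j : ℕ)) * ((2 ^ d - 1) * K * (L * ρ) ^ (J + 1)) := by
            rw [Finset.sum_mul]
        _ ≤ _ := by gcongr
    have htot : f z - ∑ j : Fin (J + 1), (k.choose j : ℝ) * PC (c j)
          (fun i => (((Fin.tail z) i : ℝ) - ξ i.succ) / t)
        = (f z - ∑ j : Fin (J + 1), (k.choose j : ℝ) *
          ((Dc 0)^[(j : ℕ)] f) (Fin.cons (x0 0) (Fin.tail z)))
          + (∑ j : Fin (J + 1), (k.choose j : ℝ) *
          ((Dc 0)^[(j : ℕ)] f) (Fin.cons (x0 0) (Fin.tail z))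
            - ∑ j : Fin (J + 1), (k.choose j : ℝ) * PC (c j)
          (fun i => (((Fin.tail z) i : ℝ) - ξ i.succ) / t)) := by ring
    rw [htot]
    refine (abs_add_le _ _).trans ?_
    refine (add_le_add (hone.trans hfirst) hsecond).trans (le_of_eq ?_)
    rw [pow_succ (2 : ℝ) d]
    ring

end Vale.Agent.P155.G
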