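import Vale.Agent.P155.G.Diff
import Vale.Agent.P155.G.Newton

/-!
# P155, block D2 : separately discrete harmonic functions are almost polynomials

`D2` : if `F : Pt → Pt → ℝ` is bounded by `M` and discrete harmonic in each variable on the boxes
of radius `n`, then on the boxes of radius `T` (`128 (J + 1) T ≤ n`) it is within
`15 (64 (J + 1) T / n)^(J+1) M` of a polynomial of degree at most `J` in each of the four
(affinely rescaled) real coordinates.
-/

namespace Vale.Agent.P155.G

open Finset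

/-- The four coordinates of a pair of points. -/
def c4 (p q : Pt) : Fin 4 → ℤ := ![p.1, p.2, q.1, q.2]

/-- A function of two points as a function on `ℤ⁴`. -/
def toC (F : Pt → Pt → ℝ) (z : Fin 4 → ℤ) : ℝ := F (z 0, z 1) (z 2, z 3)

/-- The four difference operators. -/
def D4 (i : Fin 4) (F : Pt → Pt → ℝ) : Pt → Pt → ℝ := fun p q =>
  match i with
  | 0 => Dx (fun p => F p q) p
  | 1 => Dy (fun p => F p q) p
  | 2 => Dx (F p) q
  | 3 => Dy (F p) q

/-- Iterated differences along a word. -/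
def DW : List (Fin 4) → (Pt → Pt → ℝ) → Pt → Pt → ℝ
  | [], F => F
  | i :: w, F => D4 i (DW w F)

lemma Dc_toC (i : Fin 4) (F : Pt → Pt → ℝ) : Dc i (toC F) = toC (D4 i F) := by
  funext z
  fin_cases i <;> simp [Dc, toC, D4, Dx, Dy]

lemma Dw_toC (w : List (Fin 4)) (F : Pt → Pt → ℝ) : Dw w (toC F) = toC (DW w F) := by
  induction w with
  | nil => rfl
  | cons i w ih => rw [Dw, ih, Dc_toC, DW]

/-- Separately discrete harmonic on boxes of radius `r`. -/
structure SepHarm (F : Pt → Pt → ℝ) (x y : Pt) (r : ℤ) : Prop where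
  h1 : ∀ p q, dinf x p < r → dinf y q ≤ r → lap (fun p => F p q) p = 0
  h2 : ∀ p q, dinf x p ≤ r → dinf y q < r → lap (F p) q = 0

lemma dinf_e1 (x z : Pt) : dinf x (z.1 + 1, z.2) ≤ dinf x z + 1 := by
  refine le_trans (dinf_triangle x z _) ?_
  gcongr
  simp [dinf_def]

lemma dinf_e2 (x z : Pt) : dinf x (z.1, z.2 + 1) ≤ dinf x z + 1 := by
  refine le_trans (dinf_triangle x z _) ?_
  gcongr
  simp [dinf_def]

lemma SepHarm.D4 {F : Pt → Pt → ℝ} {x y : Pt} {r : ℤ} (h : SepHarm F x y r) (i : Fin 4) :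
    SepHarm (G.D4 i F) x y (r - 1) := by
  fin_cases i
  · refine ⟨fun p q hp hq => ?_, fun p q hp hq => ?_⟩
    · change lap (Dx (fun p => F p q)) p = 0
      rw [lap_Dx, Dx, h.h1 p q (by omega) (by omega), h.h1 _ q
        (by have := dinf_e1 x p; omega) (by omega)]
      simp
    · have e : lap (fun q => Dx (fun p => F p q) p) q = lap (F (p.1 + 1, p.2)) q - lap (F p) q := by
        simp only [lap, Dx]; ring
      change lap (fun q => Dx (fun p => F p q) p) q = 0
      rw [e, h.h2 p q (by omega) (by omega), h.h2 _ q (by have := dinf_e1 x p; omega) (by omega)]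
      simp
  · refine ⟨fun p q hp hq => ?_, fun p q hp hq => ?_⟩
    · change lap (Dy (fun p => F p q)) p = 0
      rw [lap_Dy, Dy, h.h1 p q (by omega) (by omega), h.h1 _ q
        (by have := dinf_e2 x p; omega) (by omega)]
      simp
    · have e : lap (fun q => Dy (fun p => F p q) p) q = lap (F (p.1, p.2 + 1)) q - lap (F p) q := by
        simp only [lap, Dy]; ring
      change lap (fun q => Dy (fun p => F p q) p) q = 0
      rw [e, h.h2 p q (by omega) (by omega), h.h2 _ q (by have := dinf_e2 x p; omega) (by omega)]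
      simp
  · refine ⟨fun p q hp hq => ?_, fun p q hp hq => ?_⟩
    · have e : lap (fun p => Dx (F p) q) p
          = lap (fun p => F p (q.1 + 1, q.2)) p - lap (fun p => F p q) p := by
        simp only [lap, Dx]; ring
      change lap (fun p => Dx (F p) q) p = 0
      rw [e, h.h1 p q (by omega) (by omega), h.h1 p _ (by omega)
        (by have := dinf_e1 y q; omega)]
      simp
    · change lap (Dx (F p)) q = 0
      rw [lap_Dx, Dx, h.h2 p q (by omega) (by omega), h.h2 p _ (by omega)
        (by have := dinf_e1 y q; omega)]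
      simp
  · refine ⟨fun p q hp hq => ?_, fun p q hp hq => ?_⟩
    · have e : lap (fun p => Dy (F p) q) p
          = lap (fun p => F p (q.1, q.2 + 1)) p - lap (fun p => F p q) p := by
        simp only [lap, Dy]; ring
      change lap (fun p => Dy (F p) q) p = 0
      rw [e, h.h1 p q (by omega) (by omega), h.h1 p _ (by omega)
        (by have := dinf_e2 y q; omega)]
      simp
    · change lap (Dy (F p)) q = 0
      rw [lap_Dy, Dy, h.h2 p q (by omega) (by omega), h.h2 p _ (by omega)
        (by have := dinf_e2 y q; omega)]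
      simp

lemma SepHarm.DW {F : Pt → Pt → ℝ} {x y : Pt} {r : ℤ} (h : SepHarm F x y r)
    (w : List (Fin 4)) : SepHarm (G.DW w F) x y (r - w.length) := by
  induction w with
  | nil => simpa [G.DW] using h
  | cons i w ih =>
    have := ih.D4 i
    have e : r - ((i :: w).length : ℤ) = r - (w.length : ℤ) - 1 := by
      simp only [List.length_cons]; push_cast; ring
    rw [e]
    exact this

/-- Difference bounds for separately harmonic functions. -/
lemma DW_bound {F : Pt → Pt → ℝ} {x y : Pt} {n : ℕ} (h : SepHarm F x y n) (m : ℕ) (hm : 1 ≤ m)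
    (M : ℝ) (hM : ∀ p q, dinf x p ≤ n → dinf y q ≤ n → |F p q| ≤ M) :
    ∀ (w : List (Fin 4)) (p q : Pt), dinf x p + (w.length * m : ℕ) ≤ n →
      dinf y q + (w.length * m : ℕ) ≤ n → |DW w F p q| ≤ M * (2 / m) ^ w.length := by
  intro w
  induction w with
  | nil =>
    intro p q hp hq
    simpa [DW] using hM p q (by simpa using hp) (by simpa using hq)
  | cons i w ih =>
    intro p q hp hq
    rw [List.length_cons] at hp hq ⊢
    have hlm : (w.length : ℤ) ≤ w.length * m := by
      have : (1 : ℤ) ≤ m := by exact_mod_cast hm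
      nlinarith [Int.natCast_nonneg w.length]
    have hS := h.DW w
    push_cast at hp hq
    have hB : ∀ p' q', dinf p p' ≤ m → dinf q q' ≤ m →
        |DW w F p' q'| ≤ M * (2 / m) ^ w.length := by
      intro p' q' hp' hq'
      have h1 := dinf_triangle x p p'
      have h2 := dinf_triangle y q q'
      refine ih p' q' ?_ ?_
      · push_cast; linarith
      · push_cast; linarith
    have hm0 : (0 : ℝ) < m := by exact_mod_cast hm
    have hfin : 2 * (M * (2 / (m : ℝ)) ^ w.length) / m + m * 0 = M * (2 / m) ^ (w.length + 1) := by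
      rw [pow_succ]
      ring
    have hq0 : dinf q q ≤ m := by rw [dinf_self]; positivity
    have hp0 : dinf p p ≤ m := by rw [dinf_self]; positivity
    have hl1 : ∀ p', dinf p p' < m → |lap (fun p => DW w F p q) p'| ≤ 0 := by
      intro p' hp'
      have h1 := dinf_triangle x p p'
      rw [hS.h1 p' q (by linarith) (by linarith)]
      simp
    have hl2 : ∀ q', dinf q q' < m → |lap (DW w F p) q'| ≤ 0 := by
      intro q' hq'
      have h1 := dinf_triangle y q q'
      rw [hS.h2 p q' (by linarith) (by linarith)]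
      simp
    rw [← hfin]
    fin_cases i
    · exact grad_Dx (fun p => DW w F p q) p m hm _ 0 (fun p' hp' => hB p' q hp' hq0) hl1
    · exact grad_Dy (fun p => DW w F p q) p m hm _ 0 (fun p' hp' => hB p' q hp' hq0) hl1
    · exact grad_Dx (DW w F p) q m hm _ 0 (fun q' hq' => hB p q' hp0 hq') hl2
    · exact grad_Dy (DW w F p) q m hm _ 0 (fun q' hq' => hB p q' hp0 hq') hl2

/-- **D2** : polynomial approximation of separately discrete harmonic functions. -/
theorem D2 (J T n : ℕ) (hT : 1 ≤ T) (hn : 128 * (J + 1) * T ≤ n) (F : Pt → Pt → ℝ) (x y : Pt)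
    (M : ℝ) (hM : ∀ p q, dinf x p ≤ n → dinf y q ≤ n → |F p q| ≤ M)
    (h1 : ∀ p q, dinf x p < n → dinf y q ≤ n → lap (fun p => F p q) p = 0)
    (h2 : ∀ p q, dinf x p ≤ n → dinf y q < n → lap (F p) q = 0)
    (t : ℝ) (ht : t ≠ 0) (ξ : Fin 4 → ℝ) :
    ∃ c : (Fin 4 → Fin (J + 1)) → ℝ, ∀ p q, dinf x p ≤ T → dinf y q ≤ T →
      |F p q - PC c ![((p.1 : ℝ) - ξ 0) / t, ((p.2 : ℝ) - ξ 1) / t, ((q.1 : ℝ) - ξ 2) / t,
        ((q.2 : ℝ) - ξ 3) / t]| ≤ 15 * M * (64 * (J + 1) * (T / n)) ^ (J + 1) := by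
  have hS : SepHarm F x y n := ⟨h1, h2⟩
  have hT0 : (1 : ℝ) ≤ T := by exact_mod_cast hT
  have hM0 : 0 ≤ M := le_trans (abs_nonneg _)
    (hM x y (by rw [dinf_self]; positivity) (by rw [dinf_self]; positivity))
  set N := 4 * (J + 1) with hN
  have hN0 : 0 < 2 * N := by omega
  set m := n / (2 * N) with hmdef
  have hnn : 2 * N ≤ n := by nlinarith
  have hTn : 2 * T ≤ n := by nlinarith
  have hm : 1 ≤ m := (Nat.one_le_div_iff hN0).2 hnn
  have hmn : 2 * N * m ≤ n := Nat.mul_div_le n (2 * N)
  have hn0 : (0 : ℝ) < n := by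
    have : 0 < n := by omega
    exact_mod_cast this
  have hm0 : (0 : ℝ) < m := by exact_mod_cast hm
  have h2 : n ≤ 16 * (J + 1) * m := by
    have h1 : n < 2 * N * (m + 1) := by
      have := Nat.lt_mul_div_succ n hN0
      simpa [hmdef] using this
    rw [hN] at h1
    nlinarith
  have h3 : (n : ℝ) ≤ 16 * (J + 1) * m := by exact_mod_cast h2
  set ρ : ℝ := 32 * (J + 1) / n with hρ
  have hρ0 : 0 ≤ ρ := by positivity
  have hmρ : 2 / (m : ℝ) ≤ ρ := by
    rw [hρ, div_le_div_iff₀ hm0 hn0]
    nlinarith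
  have hLρ : ((2 * T : ℕ) : ℝ) * ρ = 64 * (J + 1) * (T / n) := by
    rw [hρ]; push_cast; ring
  have hLρ2 : ((2 * T : ℕ) : ℝ) * ρ ≤ 1 / 2 := by
    rw [hLρ]
    have : (128 : ℝ) * (J + 1) * T ≤ n := by exact_mod_cast hn
    rw [mul_div_assoc', div_le_iff₀ hn0]
    linarith
  obtain ⟨c, hc⟩ := newton_approx J (2 * T) ρ t hρ0 hLρ2 ht 4 (toC F)
    ![x.1 - T, x.2 - T, y.1 - T, y.2 - T] ξ M hM0 (by
      intro w hw z hz1 hz2
      rw [Dw_toC, toC]
      have h10 := hz1 0; have h11 := hz1 1; have h12 := hz1 2; have h13 := hz1 3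
      have h20 := hz2 0; have h21 := hz2 1; have h22 := hz2 2; have h23 := hz2 3
      simp only [Matrix.cons_val_zero, Matrix.cons_val_one, Matrix.cons_val] at h10 h11 h12 h13 h20 h21 h22 h23
      push_cast at h20 h21 h22 h23
      have hd1 : dinf x (z 0, z 1) ≤ T := by
        rw [dinf_le_iff, abs_le, abs_le]
        refine ⟨⟨?_, ?_⟩, ⟨?_, ?_⟩⟩ <;> simp only <;> linarith
      have hd2 : dinf y (z 2, z 3) ≤ T := by
        rw [dinf_le_iff, abs_le, abs_le]
        refine ⟨⟨?_, ?_⟩, ⟨?_, ?_⟩⟩ <;> simp only <;> linarith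
      have hwm : w.length * m ≤ N * m := Nat.mul_le_mul_right _ (by rw [hN]; omega)
      have hwm2 : 2 * (w.length * m) ≤ n := by nlinarith
      have hwm3 : ((w.length * m : ℕ) : ℤ) + T ≤ n := by
        have : w.length * m + T ≤ n := by omega
        exact_mod_cast this
      refine (DW_bound hS m hm M hM w _ _ (by linarith) (by linarith)).trans ?_
      gcongr)
  refine ⟨c, fun p q hp hq => ?_⟩
  rw [dinf_le_iff] at hp hq
  have hp1 := abs_le.1 hp.1
  have hp2 := abs_le.1 hp.2
  have hq1 := abs_le.1 hq.1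
  have hq2 := abs_le.1 hq.2
  have := hc (c4 p q) (by
    intro i
    fin_cases i <;> simp [c4] <;> linarith) (by
    intro i
    fin_cases i <;> simp [c4] <;> linarith)
  have e1 : toC F (c4 p q) = F p q := by simp [toC, c4]
  have e2 : (fun i => (((c4 p q) i : ℝ) - ξ i) / t) = ![((p.1 : ℝ) - ξ 0) / t,
      ((p.2 : ℝ) - ξ 1) / t, ((q.1 : ℝ) - ξ 2) / t, ((q.2 : ℝ) - ξ 3) / t] := by
    funext i
    fin_cases i <;> simp [c4]
  rw [e1, e2, hLρ] at this
  refine this.trans (le_of_eq ?_)
  norm_num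

end Vale.Agent.P155.G
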