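import Vale.Agent.P155.G.Mean

/-!
# P155, block G3 : Poincaré inequality in boxes, gradient bounds from the energy

* `poincare` : `∑_{box x n} (u - c)² ≤ (2 n + 1)² E`, `E` = energy of the edges inside the box.
* `mean_value_sq`, `grad_energy` : `n² |∇u(x)|² ≤ 72 ∑_{box x n} |∇u|²` for harmonic `u`.
-/

namespace Vale.Agent.P155.G

open Finset

/-- `v²` is subharmonic where `v` is harmonic. -/
lemma lap_sq_ge (v : Pt → ℝ) (z : Pt) : 2 * v z * lap v z ≤ lap (fun z => v z ^ 2) z := by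
  simp only [lap]
  nlinarith [sq_nonneg (v (z.1 + 1, z.2) - v z), sq_nonneg (v (z.1 - 1, z.2) - v z),
    sq_nonneg (v (z.1, z.2 + 1) - v z), sq_nonneg (v (z.1, z.2 - 1) - v z)]

/-- Mean value inequality for the square of a harmonic function. -/
theorem mean_value_sq (v : Pt → ℝ) (x : Pt) (n : ℕ) (hs : ∀ z, dinf x z < n → lap v z = 0) :
    (n : ℝ) ^ 2 * v x ^ 2 ≤ 72 * ∑ z ∈ box x n, v z ^ 2 :=
  mean_value (fun z => v z ^ 2) x n (fun z _ => sq_nonneg _) (fun z hz => by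
    have := lap_sq_ge v z
    rw [hs z hz] at this
    linarith)

/-- Pointwise gradient bound from the energy, first variable. -/
theorem grad_energy_x (u : Pt → ℝ) (x : Pt) (n : ℕ) (hu : ∀ z, dinf x z ≤ n → lap u z = 0) :
    (n : ℝ) ^ 2 * Dx u x ^ 2 ≤ 72 * ∑ z ∈ box x n, Dx u z ^ 2 := by
  apply mean_value_sq
  intro z hz
  rw [lap_Dx, Dx, hu z hz.le, hu]
  · simp
  · have := dinf_triangle x z (z.1 + 1, z.2)
    have h2 : dinf z (z.1 + 1, z.2) = 1 := by simp [dinf_def]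
    omega

/-- Pointwise gradient bound from the energy, second variable. -/
theorem grad_energy_y (u : Pt → ℝ) (x : Pt) (n : ℕ) (hu : ∀ z, dinf x z ≤ n → lap u z = 0) :
    (n : ℝ) ^ 2 * Dy u x ^ 2 ≤ 72 * ∑ z ∈ box x n, Dy u z ^ 2 := by
  apply mean_value_sq
  intro z hz
  rw [lap_Dy, Dy, hu z hz.le, hu]
  · simp
  · have := dinf_triangle x z (z.1, z.2 + 1)
    have h2 : dinf z (z.1, z.2 + 1) = 1 := by simp [dinf_def]
    omega

/-! ### Poincaré inequality -/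

/-- One dimensional estimate. -/
lemma sq_diff_le (f : ℤ → ℝ) (a : ℤ) (L : ℕ) (i j : ℤ) (hi : a ≤ i) (hi' : i ≤ a + L)
    (hj : a ≤ j) (hj' : j ≤ a + L) :
    (f i - f j) ^ 2 ≤ L * ∑ k ∈ Ico a (a + L), (f (k + 1) - f k) ^ 2 := by
  have main : ∀ i j : ℤ, a ≤ i → i ≤ j → j ≤ a + L →
      (f j - f i) ^ 2 ≤ L * ∑ k ∈ Ico a (a + L), (f (k + 1) - f k) ^ 2 := by
    intro i j h1 h2 h3
    obtain ⟨m, rfl⟩ : ∃ m : ℕ, j = i + m := ⟨(j - i).toNat, by omega⟩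
    have htel : ∀ m : ℕ, f (i + m) - f i = ∑ k ∈ Ico i (i + m), (f (k + 1) - f k) := by
      intro m
      induction m with
      | zero => simp
      | succ m ih =>
        have e : Ico i (i + ((m + 1 : ℕ) : ℤ)) = insert (i + (m : ℤ)) (Ico i (i + m)) := by
          ext k
          simp only [mem_Ico, mem_insert]
          push_cast
          omega
        rw [e, sum_insert (by simp), ← ih]
        push_cast
        rw [← add_assoc]
        ring
    rw [htel m]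
    have hcs := sq_sum_le_card_mul_sum_sq (s := Ico i (i + (m : ℤ))) (f := fun k => f (k + 1) - f k)
    refine hcs.trans ?_
    have hcard : ((#(Ico i (i + (m : ℤ))) : ℕ) : ℝ) ≤ L := by
      rw [Int.card_Ico]
      have : (i + (m : ℤ) - i).toNat ≤ L := by omega
      exact_mod_cast this
    have hsub : Ico i (i + (m : ℤ)) ⊆ Ico a (a + L) := by
      intro k
      simp only [mem_Ico]
      omega
    calc ((#(Ico i (i + (m : ℤ))) : ℕ) : ℝ) * ∑ k ∈ Ico i (i + (m : ℤ)), (f (k + 1) - f k) ^ 2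
        ≤ L * ∑ k ∈ Ico i (i + (m : ℤ)), (f (k + 1) - f k) ^ 2 := by
          gcongr
      _ ≤ L * ∑ k ∈ Ico a (a + L), (f (k + 1) - f k) ^ 2 := by
          gcongr
  rcases le_total i j with h | h
  · have := main i j hi h hj'
    rw [← neg_sq]
    convert this using 2
    ring
  · exact main j i hj h hi'

/-- The energy of `u` on the edges inside the rectangle `[a, a + L] × [b, b + L]`. -/
noncomputable def enR (u : Pt → ℝ) (a b : ℤ) (L : ℕ) : ℝ :=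
  ∑ l ∈ Icc b (b + L), ∑ k ∈ Ico a (a + L), Dx u (k, l) ^ 2 +
    ∑ k ∈ Icc a (a + L), ∑ l ∈ Ico b (b + L), Dy u (k, l) ^ 2

lemma enR_nonneg (u : Pt → ℝ) (a b : ℤ) (L : ℕ) : 0 ≤ enR u a b L :=
  add_nonneg (sum_nonneg fun _ _ => sum_nonneg fun _ _ => sq_nonneg _)
    (sum_nonneg fun _ _ => sum_nonneg fun _ _ => sq_nonneg _)

lemma card_side (a : ℤ) (L : ℕ) : ((#(Icc a (a + L)) : ℕ) : ℝ) = L + 1 := by
  rw [Int.card_Icc]
  have : (a + (L : ℤ) + 1 - a).toNat = L + 1 := by omega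
  rw [this]
  push_cast
  ring

/-- Poincaré inequality, two point form. -/
theorem poincare_pairs (u : Pt → ℝ) (a b : ℤ) (L : ℕ) :
    ∑ z ∈ Icc a (a + L) ×ˢ Icc b (b + L), ∑ w ∈ Icc a (a + L) ×ˢ Icc b (b + L), (u z - u w) ^ 2
      ≤ 2 * L * (L + 1) ^ 3 * enR u a b L := by
  set H : ℤ → ℝ := fun l => ∑ k ∈ Ico a (a + L), Dx u (k, l) ^ 2 with hH
  set V : ℤ → ℝ := fun k => ∑ l ∈ Ico b (b + L), Dy u (k, l) ^ 2 with hV
  have hpt : ∀ z ∈ Icc a (a + (L : ℤ)) ×ˢ Icc b (b + (L : ℤ)),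
      ∀ w ∈ Icc a (a + (L : ℤ)) ×ˢ Icc b (b + (L : ℤ)),
      (u z - u w) ^ 2 ≤ 2 * L * H z.2 + 2 * L * V w.1 := by
    intro z hz w hw
    simp only [mem_product, mem_Icc] at hz hw
    have h1 := sq_diff_le (fun k => u (k, z.2)) a L z.1 w.1 hz.1.1 hz.1.2 hw.1.1 hw.1.2
    have h2 := sq_diff_le (fun l => u (w.1, l)) b L z.2 w.2 hz.2.1 hz.2.2 hw.2.1 hw.2.2
    have e : (u z - u w) ^ 2 ≤ 2 * (u (z.1, z.2) - u (w.1, z.2)) ^ 2
        + 2 * (u (w.1, z.2) - u (w.1, w.2)) ^ 2 := by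
      have : u z - u w = (u (z.1, z.2) - u (w.1, z.2)) + (u (w.1, z.2) - u (w.1, w.2)) := by ring
      rw [this]
      nlinarith [sq_nonneg ((u (z.1, z.2) - u (w.1, z.2)) - (u (w.1, z.2) - u (w.1, w.2)))]
    have h1' : (u (z.1, z.2) - u (w.1, z.2)) ^ 2 ≤ L * H z.2 := h1
    have h2' : (u (w.1, z.2) - u (w.1, w.2)) ^ 2 ≤ L * V w.1 := h2
    linarith
  have hsum : ∑ z ∈ Icc a (a + (L : ℤ)) ×ˢ Icc b (b + (L : ℤ)),
      ∑ w ∈ Icc a (a + (L : ℤ)) ×ˢ Icc b (b + (L : ℤ)), (2 * L * H z.2 + 2 * L * V w.1)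
      = 2 * L * (L + 1) ^ 3 * enR u a b L := by
    simp only [sum_add_distrib, sum_const, nsmul_eq_mul, sum_product, card_product]
    simp only [← mul_sum]
    have hc1 := card_side a L
    have hc2 := card_side b L
    push_cast
    rw [hc1, hc2]
    have e : enR u a b L = ∑ l ∈ Icc b (b + (L : ℤ)), H l + ∑ k ∈ Icc a (a + (L : ℤ)), V k := rfl
    rw [e]
    ring
  rw [← hsum]
  exact sum_le_sum fun z hz => sum_le_sum fun w hw => hpt z hz w hw

/-- **Poincaré inequality** in a square. -/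
theorem poincare_sq (u : Pt → ℝ) (a b : ℤ) (L : ℕ) :
    ∃ c : ℝ, ∑ z ∈ Icc a (a + L) ×ˢ Icc b (b + L), (u z - c) = 0 ∧
      ∑ z ∈ Icc a (a + L) ×ˢ Icc b (b + L), (u z - c) ^ 2 ≤ L * (L + 1) * enR u a b L := by
  set B := Icc a (a + (L : ℤ)) ×ˢ Icc b (b + (L : ℤ)) with hB
  have hcard : ((#B : ℕ) : ℝ) = (L + 1) ^ 2 := by
    rw [hB, card_product]
    push_cast
    rw [card_side, card_side]
    ring
  have hpos : (0 : ℝ) < ((L : ℝ) + 1) ^ 2 := by positivity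
  set S := ∑ z ∈ B, u z with hS
  set Q := ∑ z ∈ B, u z ^ 2 with hQ
  refine ⟨S / (L + 1) ^ 2, ?_, ?_⟩
  · rw [sum_sub_distrib, sum_const, nsmul_eq_mul, hcard, ← hS]
    field_simp
    ring
  · have h := poincare_pairs u a b L
    rw [← hB] at h
    have e1 : ∑ z ∈ B, ∑ w ∈ B, (u z - u w) ^ 2 = 2 * (L + 1) ^ 2 * Q - 2 * S ^ 2 := by
      have : ∀ z ∈ B, ∑ w ∈ B, (u z - u w) ^ 2 = (L + 1) ^ 2 * u z ^ 2 - 2 * u z * S + Q := by
        intro z _
        have : ∀ w ∈ B, (u z - u w) ^ 2 = u z ^ 2 - 2 * u z * u w + u w ^ 2 := fun w _ => by ring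
        rw [sum_congr rfl this, sum_add_distrib, sum_sub_distrib, sum_const, nsmul_eq_mul, hcard,
          ← mul_sum]
      rw [sum_congr rfl this, sum_add_distrib, sum_sub_distrib, sum_const, nsmul_eq_mul, hcard,
        ← mul_sum, ← sum_mul, ← mul_sum]
      rw [← hS, ← hQ]
      ring
    have e2 : ∑ z ∈ B, (u z - S / (L + 1) ^ 2) ^ 2 = Q - S ^ 2 / (L + 1) ^ 2 := by
      have : ∀ z ∈ B, (u z - S / ((L : ℝ) + 1) ^ 2) ^ 2
          = u z ^ 2 - 2 * (S / (L + 1) ^ 2) * u z + (S / (L + 1) ^ 2) ^ 2 := fun z _ => by ring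
      rw [sum_congr rfl this, sum_add_distrib, sum_sub_distrib, sum_const, nsmul_eq_mul, hcard,
        ← mul_sum, ← hS, ← hQ]
      field_simp
      ring
    rw [e2]
    rw [e1] at h
    have h3 : (L + 1 : ℝ) ^ 2 * (Q - S ^ 2 / (L + 1) ^ 2) ≤ (L + 1) ^ 2 *
        (L * (L + 1) * enR u a b L) := by
      have e3 : (L + 1 : ℝ) ^ 2 * (Q - S ^ 2 / (L + 1) ^ 2) = (L + 1) ^ 2 * Q - S ^ 2 := by
        field_simp
      rw [e3]
      nlinarith
    exact le_of_mul_le_mul_left h3 hpos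

/-- The energy of the edges inside `box x n`. -/
noncomputable def enB (u : Pt → ℝ) (x : Pt) (n : ℕ) : ℝ := enR u (x.1 - n) (x.2 - n) (2 * n)

lemma enB_nonneg (u : Pt → ℝ) (x : Pt) (n : ℕ) : 0 ≤ enB u x n := enR_nonneg _ _ _ _

/-- **Poincaré inequality** in a box. -/
theorem poincare (u : Pt → ℝ) (x : Pt) (n : ℕ) :
    ∃ c : ℝ, ∑ z ∈ box x n, (u z - c) = 0 ∧
      ∑ z ∈ box x n, (u z - c) ^ 2 ≤ (2 * n + 1) ^ 2 * enB u x n := by
  obtain ⟨c, h1, h2⟩ := poincare_sq u (x.1 - n) (x.2 - n) (2 * n)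
  have e : Icc (x.1 - (n : ℤ)) (x.1 - n + ((2 * n : ℕ) : ℤ)) ×ˢ
      Icc (x.2 - (n : ℤ)) (x.2 - n + ((2 * n : ℕ) : ℤ)) = box x n := by
    unfold box
    congr 2 <;> · push_cast; ring
  rw [e] at h1 h2
  refine ⟨c, h1, h2.trans ?_⟩
  have hE := enB_nonneg u x n
  have : ((2 * n : ℕ) : ℝ) * (((2 * n : ℕ) : ℝ) + 1) ≤ (2 * n + 1) ^ 2 := by
    push_cast; nlinarith [(Nat.cast_nonneg n : (0 : ℝ) ≤ n)]
  exact mul_le_mul_of_nonneg_right this hE

/-- The energy inside the box is at most the sum of the squared forward differences. -/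
lemma enB_le (u : Pt → ℝ) (x : Pt) (n : ℕ) :
    enB u x n ≤ ∑ z ∈ box x n, (Dx u z ^ 2 + Dy u z ^ 2) := by
  have e : Icc (x.1 - (n : ℤ)) (x.1 - n + ((2 * n : ℕ) : ℤ)) ×ˢ
      Icc (x.2 - (n : ℤ)) (x.2 - n + ((2 * n : ℕ) : ℤ)) = box x n := by
    unfold box
    congr 2 <;> · push_cast; ring
  rw [← e, sum_add_distrib, sum_product_right, sum_product]
  unfold enB enR
  gcongr with l hl k hk
  · intro k hk; simp only [mem_Ico, mem_Icc] at *; omega
  · intro l hl; simp only [mem_Ico, mem_Icc] at *; omega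

end Vale.Agent.P155.G
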