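import Vale.Agent.P155.Defs2

/-!
# P155, block G2 : gradient estimates for the discrete Laplacian on `ℤ²`

Elementary proof by reflection and an explicit quadratic barrier.

* `grad_x`, `grad_y` : if `|u| ≤ M` on the box of radius `n` about `x` and `|lap u| ≤ Φ` on the
  box of radius `n - 1`, then `|u (x + e) - u x| ≤ 2 M / n + n Φ`.
* `diff_le` : iterated differences.
-/

namespace Vale.Agent.P155.G

/-- Minimum principle in a half box for functions that are superharmonic after odd reflection. -/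
lemma half_min (n : ℤ) (v : ℤ → ℤ → ℝ)
    (hb : ∀ a b, 1 ≤ a → a ≤ n → |b| ≤ n → (a = n ∨ |b| = n) → 0 ≤ v a b)
    (hint : ∀ a b, 2 ≤ a → a < n → |b| < n →
      v (a + 1) b + v (a - 1) b + v a (b + 1) + v a (b - 1) ≤ 4 * v a b)
    (hone : ∀ b, 1 < n → |b| < n → v 2 b + v 1 (b + 1) + v 1 (b - 1) ≤ 5 * v 1 b) :
    ∀ a b, 1 ≤ a → a ≤ n → |b| ≤ n → 0 ≤ v a b := by
  intro a b ha1 ha2 hb2
  by_contra hneg
  push Not at hneg
  set S : Finset (ℤ × ℤ) := Finset.Icc 1 n ×ˢ Finset.Icc (-n) n with hS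
  have memS : ∀ p : ℤ × ℤ, p ∈ S ↔ (1 ≤ p.1 ∧ p.1 ≤ n) ∧ |p.2| ≤ n := by
    intro p
    rw [hS, Finset.mem_product, Finset.mem_Icc, Finset.mem_Icc, abs_le]
  have hab : (a, b) ∈ S := (memS _).2 ⟨⟨ha1, ha2⟩, hb2⟩
  obtain ⟨p0, hp0, hmin⟩ := Finset.exists_min_image S (fun p => v p.1 p.2) ⟨_, hab⟩
  set m := v p0.1 p0.2 with hm
  have hm0 : m < 0 := lt_of_le_of_lt (hmin _ hab) hneg
  set S' := S.filter (fun p => v p.1 p.2 = m) with hS'
  have hp0' : p0 ∈ S' := Finset.mem_filter.2 ⟨hp0, rfl⟩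
  obtain ⟨p1, hp1, hmax⟩ := Finset.exists_max_image S' (fun p => p.1) ⟨_, hp0'⟩
  obtain ⟨hp1S, hp1m⟩ := Finset.mem_filter.1 hp1
  obtain ⟨⟨h1, h2⟩, h3⟩ := (memS _).1 hp1S
  have hnb : ¬ (p1.1 = n ∨ |p1.2| = n) := by
    intro h
    have := hb _ _ h1 h2 h3 h
    linarith
  push Not at hnb
  have ha : p1.1 < n := lt_of_le_of_ne h2 hnb.1
  have hbb : |p1.2| < n := lt_of_le_of_ne h3 hnb.2
  obtain ⟨hb3, hb4⟩ := abs_lt.1 hbb
  have hge : ∀ a b : ℤ, 1 ≤ a → a ≤ n → |b| ≤ n → m ≤ v a b := by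
    intro a b h h' h''
    exact hmin (a, b) ((memS _).2 ⟨⟨h, h'⟩, h''⟩)
  have hup : m ≤ v p1.1 (p1.2 + 1) := hge _ _ h1 h2 (abs_le.2 ⟨by omega, by omega⟩)
  have hdn : m ≤ v p1.1 (p1.2 - 1) := hge _ _ h1 h2 (abs_le.2 ⟨by omega, by omega⟩)
  have hrt : m ≤ v (p1.1 + 1) p1.2 := hge _ _ (by omega) (by omega) h3
  rcases eq_or_lt_of_le h1 with h | h
  · have e1 : p1.1 = 1 := h.symm
    have := hone p1.2 (by omega) hbb
    rw [e1] at hup hdn hrt hp1m
    norm_num at hrt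
    linarith
  · have h5 := hint p1.1 p1.2 (by omega) ha hbb
    have hlt : m ≤ v (p1.1 - 1) p1.2 := hge _ _ (by omega) (by omega) h3
    have hstrict : m < v (p1.1 + 1) p1.2 := by
      refine lt_of_le_of_ne hrt ?_
      intro heq
      have : (p1.1 + 1, p1.2) ∈ S' :=
        Finset.mem_filter.2 ⟨(memS _).2 ⟨⟨by omega, by omega⟩, h3⟩, heq.symm⟩
      have := hmax _ this
      simp at this
    linarith

/-- One-sided gradient estimate in the first variable. -/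
lemma grad_x_aux (u : ℤ × ℤ → ℝ) (x : ℤ × ℤ) (n : ℕ) (hn : 1 ≤ n) (M Φ : ℝ)
    (hM : ∀ z : ℤ × ℤ, |z.1 - x.1| ≤ n → |z.2 - x.2| ≤ n → |u z| ≤ M)
    (hΦ : ∀ z : ℤ × ℤ, |z.1 - x.1| < n → |z.2 - x.2| < n → |lap u z| ≤ Φ) :
    u (x.1 + 1, x.2) - u x ≤ 2 * M / n + n * Φ := by
  have hn0 : (0 : ℝ) < n := by exact_mod_cast hn
  have hM0 : 0 ≤ M := le_trans (abs_nonneg _) (hM x (by simp) (by simp))
  have hΦ0 : 0 ≤ Φ := le_trans (abs_nonneg _) (hΦ x (by simp; omega) (by simp; omega))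
  set w : ℤ → ℤ → ℝ := fun a b => u (x.1 + a, x.2 + b) - u (x.1 + 1 - a, x.2 + b) with hw
  set β : ℤ → ℤ → ℝ := fun a b =>
    ((b : ℝ) ^ 2 + a - (a : ℝ) ^ 2 + (2 * a - 1) * n) / (n : ℝ) ^ 2 with hβ
  set γ : ℤ → ℤ → ℝ := fun a _ => (2 * (a : ℝ) - 1) * n + a - (a : ℝ) ^ 2 with hγ
  set v : ℤ → ℤ → ℝ := fun a b => 2 * M * β a b + Φ * γ a b - w a b with hv
  have hγ0 : ∀ a b : ℤ, 1 ≤ a → a ≤ n → 0 ≤ γ a b := by
    intro a b h1 h2
    have h1' : (1 : ℝ) ≤ a := by exact_mod_cast h1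
    have h2' : (a : ℝ) ≤ n := by exact_mod_cast h2
    simp only [hγ]
    nlinarith [mul_nonneg (sub_nonneg.2 h1') (sub_nonneg.2 h2')]
  have key : ∀ a b : ℤ, 1 ≤ a → a ≤ (n : ℤ) → |b| ≤ (n : ℤ) → 0 ≤ v a b := by
    apply half_min (n : ℤ) v
    · intro a b h1 h2 h3 h4
      have h1' : (1 : ℝ) ≤ a := by exact_mod_cast h1
      have h2' : (a : ℝ) ≤ n := by exact_mod_cast h2
      have hβ1 : 1 ≤ β a b := by
        simp only [hβ]
        rw [le_div_iff₀ (by positivity), one_mul]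
        rcases h4 with h4 | h4
        · have : (a : ℝ) = n := by exact_mod_cast h4
          rw [this]
          nlinarith [sq_nonneg (b : ℝ)]
        · have hb2 : (b : ℝ) ^ 2 = (n : ℝ) ^ 2 := by
            have : |b| ^ 2 = (n : ℤ) ^ 2 := by rw [h4]
            rw [sq_abs] at this
            exact_mod_cast this
          rw [hb2]
          nlinarith [mul_nonneg (sub_nonneg.2 h1') (sub_nonneg.2 h2')]
      have hwM : w a b ≤ 2 * M := by
        have e1 : |u (x.1 + a, x.2 + b)| ≤ M := hM _ (by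
          simp only [add_sub_cancel_left]; rw [abs_le]; omega) (by
          simp only [add_sub_cancel_left]; exact h3)
        have e2 : |u (x.1 + 1 - a, x.2 + b)| ≤ M := hM _ (by
          have : x.1 + 1 - a - x.1 = 1 - a := by ring
          simp only [this]; rw [abs_le]; omega) (by
          simp only [add_sub_cancel_left]; exact h3)
        have := abs_le.1 e1
        have := abs_le.1 e2
        simp only [hw]
        linarith
      have := hγ0 a b h1 h2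
      simp only [hv]
      have e3 : 2 * M * 1 ≤ 2 * M * β a b := by gcongr
      have e4 : 0 ≤ Φ * γ a b := mul_nonneg hΦ0 this
      linarith
    · intro a b h1 h2 h3
      obtain ⟨hb3, hb4⟩ := abs_lt.1 h3
      have e1 := hΦ (x.1 + a, x.2 + b) (by
        simp only [add_sub_cancel_left]; rw [abs_lt]; omega) (by
        simp only [add_sub_cancel_left]; exact h3)
      have e2 := hΦ (x.1 + 1 - a, x.2 + b) (by
        have : x.1 + 1 - a - x.1 = 1 - a := by ring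
        simp only [this]; rw [abs_lt]; omega) (by
        simp only [add_sub_cancel_left]; exact h3)
      have e1' := abs_le.1 e1
      have e2' := abs_le.1 e2
      simp only [lap] at e1' e2'
      simp only [hv, hw, hβ, hγ]
      have r1 : x.1 + (a + 1) = x.1 + a + 1 := by ring
      have r2 : x.1 + (a - 1) = x.1 + a - 1 := by ring
      have r3 : x.2 + (b + 1) = x.2 + b + 1 := by ring
      have r4 : x.2 + (b - 1) = x.2 + b - 1 := by ring
      have r5 : x.1 + 1 - (a + 1) = x.1 + 1 - a - 1 := by ring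
      have r6 : x.1 + 1 - (a - 1) = x.1 + 1 - a + 1 := by ring
      rw [r1, r2, r3, r4, r5, r6]
      push_cast
      have hdiv : (((b : ℝ) ^ 2 + (a + 1) - ((a : ℝ) + 1) ^ 2 + (2 * (a + 1) - 1) * n) / (n : ℝ) ^ 2)
        + (((b : ℝ) ^ 2 + (a - 1) - ((a : ℝ) - 1) ^ 2 + (2 * (a - 1) - 1) * n) / (n : ℝ) ^ 2)
        + ((((b : ℝ) + 1) ^ 2 + a - ((a : ℝ)) ^ 2 + (2 * a - 1) * n) / (n : ℝ) ^ 2)
        + ((((b : ℝ) - 1) ^ 2 + a - ((a : ℝ)) ^ 2 + (2 * a - 1) * n) / (n : ℝ) ^ 2)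
        = 4 * (((b : ℝ) ^ 2 + a - ((a : ℝ)) ^ 2 + (2 * a - 1) * n) / (n : ℝ) ^ 2) := by
        field_simp
        ring
      have hM' := congrArg (fun t => 2 * M * t) hdiv
      beta_reduce at hM'
      nlinarith [hM', e1'.1, e1'.2, e2'.1, e2'.2]
    · intro b h1 h3
      obtain ⟨hb3, hb4⟩ := abs_lt.1 h3
      have e1 := hΦ (x.1 + 1, x.2 + b) (by
        simp only [add_sub_cancel_left]; rw [abs_lt]; omega) (by
        simp only [add_sub_cancel_left]; exact h3)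
      have e2 := hΦ (x.1, x.2 + b) (by
        simp; omega) (by
        simp only [add_sub_cancel_left]; exact h3)
      have e1' := abs_le.1 e1
      have e2' := abs_le.1 e2
      simp only [lap] at e1' e2'
      simp only [hv, hw, hβ, hγ]
      have r1 : x.1 + 2 = x.1 + 1 + 1 := by ring
      have r2 : x.1 + 1 - 1 = x.1 := by ring
      have r3 : x.2 + (b + 1) = x.2 + b + 1 := by ring
      have r4 : x.2 + (b - 1) = x.2 + b - 1 := by ring
      have r5 : x.1 + 1 - 2 = x.1 - 1 := by ring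
      rw [r2] at e1'
      rw [r1, r2, r3, r4, ← r1, r5]
      rw [r1]
      push_cast
      have hdiv : (((b : ℝ) ^ 2 + 2 - (2 : ℝ) ^ 2 + (2 * 2 - 1) * n) / (n : ℝ) ^ 2)
        + ((((b : ℝ) + 1) ^ 2 + 1 - (1 : ℝ) ^ 2 + (2 * 1 - 1) * n) / (n : ℝ) ^ 2)
        + ((((b : ℝ) - 1) ^ 2 + 1 - (1 : ℝ) ^ 2 + (2 * 1 - 1) * n) / (n : ℝ) ^ 2)
        = 5 * (((b : ℝ) ^ 2 + 1 - (1 : ℝ) ^ 2 + (2 * 1 - 1) * n) / (n : ℝ) ^ 2)
          - 2 * (b : ℝ) ^ 2 / (n : ℝ) ^ 2 := by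
        field_simp
        ring
      have hM' := congrArg (fun t => 2 * M * t) hdiv
      beta_reduce at hM'
      have hpos : 0 ≤ 2 * M * (2 * (b : ℝ) ^ 2 / (n : ℝ) ^ 2) := by positivity
      nlinarith [hM', e1'.1, e1'.2, e2'.1, e2'.2, hpos]
  have h := key 1 0 le_rfl (by exact_mod_cast hn) (by simp)
  simp only [hv, hw, hβ, hγ] at h
  have r1 : x.1 + 1 - 1 = x.1 := by ring
  rw [r1] at h
  simp only [add_zero] at h
  push_cast at h
  have e : 2 * M * (((0 : ℝ) ^ 2 + 1 - 1 ^ 2 + (2 * 1 - 1) * n) / (n : ℝ) ^ 2) = 2 * M / n := by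
    field_simp
    ring
  rw [e] at h
  have e' : Φ * ((2 * 1 - 1) * (n : ℝ) + 1 - 1 ^ 2) = n * Φ := by ring
  rw [e'] at h
  have e'' : (x.1, x.2) = x := rfl
  rw [e''] at h
  linarith

/-- **Gradient estimate** in the first variable. -/
theorem grad_x (u : ℤ × ℤ → ℝ) (x : ℤ × ℤ) (n : ℕ) (hn : 1 ≤ n) (M Φ : ℝ)
    (hM : ∀ z : ℤ × ℤ, |z.1 - x.1| ≤ n → |z.2 - x.2| ≤ n → |u z| ≤ M)
    (hΦ : ∀ z : ℤ × ℤ, |z.1 - x.1| < n → |z.2 - x.2| < n → |lap u z| ≤ Φ) :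
    |Dx u x| ≤ 2 * M / n + n * Φ := by
  rw [abs_le]
  constructor
  · have := grad_x_aux (fun z => - u z) x n hn M Φ (by
      intro z h1 h2
      rw [abs_neg]
      exact hM z h1 h2) (by
      intro z h1 h2
      have e : lap (fun z => - u z) z = - lap u z := by
        simp only [lap]; ring
      rw [e, abs_neg]
      exact hΦ z h1 h2)
    simp only [Dx]
    linarith
  · exact grad_x_aux u x n hn M Φ hM hΦ

/-- **Gradient estimate** in the second variable. -/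
theorem grad_y (u : ℤ × ℤ → ℝ) (x : ℤ × ℤ) (n : ℕ) (hn : 1 ≤ n) (M Φ : ℝ)
    (hM : ∀ z : ℤ × ℤ, |z.1 - x.1| ≤ n → |z.2 - x.2| ≤ n → |u z| ≤ M)
    (hΦ : ∀ z : ℤ × ℤ, |z.1 - x.1| < n → |z.2 - x.2| < n → |lap u z| ≤ Φ) :
    |Dy u x| ≤ 2 * M / n + n * Φ := by
  have := grad_x (fun z => u (z.2, z.1)) (x.2, x.1) n hn M Φ (by
    intro z h1 h2
    exact hM (z.2, z.1) h2 h1) (by
    intro z h1 h2
    have e : lap (fun z => u (z.2, z.1)) z = lap u (z.2, z.1) := by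
      simp only [lap]; ring
    rw [e]
    exact hΦ (z.2, z.1) h2 h1)
  exact this

end Vale.Agent.P155.G
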