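import Vale.Agent.P155.G.Grad

/-!
# P155, block G2 : iterated difference estimates

`diff_le` : all differences of order `≤ k` of a function with controlled Laplacian.
`diff_harm_le` : the case of discrete harmonic functions.
-/

namespace Vale.Agent.P155.G

lemma dinf_def (x z : Pt) : dinf x z = max |x.1 - z.1| |x.2 - z.2| := rfl

lemma dinf_le_iff {x z : Pt} {r : ℤ} : dinf x z ≤ r ↔ |z.1 - x.1| ≤ r ∧ |z.2 - x.2| ≤ r := by
  rw [dinf_def, max_le_iff, abs_sub_comm x.1, abs_sub_comm x.2]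

lemma dinf_lt_iff {x z : Pt} {r : ℤ} : dinf x z < r ↔ |z.1 - x.1| < r ∧ |z.2 - x.2| < r := by
  rw [dinf_def, max_lt_iff, abs_sub_comm x.1, abs_sub_comm x.2]

lemma dinf_nonneg (x z : Pt) : 0 ≤ dinf x z := le_trans (abs_nonneg _) (le_max_left _ _)

lemma dinf_self (x : Pt) : dinf x x = 0 := by simp [dinf_def]

lemma dinf_comm (x z : Pt) : dinf x z = dinf z x := by
  rw [dinf_def, dinf_def, abs_sub_comm x.1, abs_sub_comm x.2]

lemma dinf_triangle (x y z : Pt) : dinf x z ≤ dinf x y + dinf y z := by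
  rw [dinf_def x z]
  have h1 : |x.1 - y.1| ≤ dinf x y := le_max_left _ _
  have h2 : |x.2 - y.2| ≤ dinf x y := le_max_right _ _
  have h3 : |y.1 - z.1| ≤ dinf y z := le_max_left _ _
  have h4 : |y.2 - z.2| ≤ dinf y z := le_max_right _ _
  apply max_le
  · have := abs_sub_le x.1 y.1 z.1
    linarith
  · have := abs_sub_le x.2 y.2 z.2
    linarith

/-- Gradient estimate with `dinf`. -/
theorem grad_Dx (u : Pt → ℝ) (x : Pt) (n : ℕ) (hn : 1 ≤ n) (M Φ : ℝ)
    (hM : ∀ z, dinf x z ≤ n → |u z| ≤ M) (hΦ : ∀ z, dinf x z < n → |lap u z| ≤ Φ) :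
    |Dx u x| ≤ 2 * M / n + n * Φ :=
  grad_x u x n hn M Φ (fun z h1 h2 => hM z (dinf_le_iff.2 ⟨h1, h2⟩))
    (fun z h1 h2 => hΦ z (dinf_lt_iff.2 ⟨h1, h2⟩))

/-- Gradient estimate with `dinf`. -/
theorem grad_Dy (u : Pt → ℝ) (x : Pt) (n : ℕ) (hn : 1 ≤ n) (M Φ : ℝ)
    (hM : ∀ z, dinf x z ≤ n → |u z| ≤ M) (hΦ : ∀ z, dinf x z < n → |lap u z| ≤ Φ) :
    |Dy u x| ≤ 2 * M / n + n * Φ :=
  grad_y u x n hn M Φ (fun z h1 h2 => hM z (dinf_le_iff.2 ⟨h1, h2⟩))
    (fun z h1 h2 => hΦ z (dinf_lt_iff.2 ⟨h1, h2⟩))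

/-! ### Commutation -/

lemma lap_Dx (u : Pt → ℝ) : lap (Dx u) = Dx (lap u) := by
  funext z
  simp only [lap, Dx]
  have : z.1 + 1 - 1 = z.1 := by ring
  have h2 : z.1 - 1 + 1 = z.1 := by ring
  rw [this, h2]
  ring

lemma lap_Dy (u : Pt → ℝ) : lap (Dy u) = Dy (lap u) := by
  funext z
  simp only [lap, Dy]
  have : z.2 + 1 - 1 = z.2 := by ring
  have h2 : z.2 - 1 + 1 = z.2 := by ring
  rw [this, h2]
  ring

lemma Dx_Dy (u : Pt → ℝ) : Dx (Dy u) = Dy (Dx u) := by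
  funext z
  simp only [Dx, Dy]
  ring

lemma lap_Dx_iter (a : ℕ) (u : Pt → ℝ) : lap (Dx^[a] u) = Dx^[a] (lap u) := by
  induction a with
  | zero => rfl
  | succ a ih => rw [Function.iterate_succ_apply', Function.iterate_succ_apply', lap_Dx, ih]

lemma lap_Dy_iter (b : ℕ) (u : Pt → ℝ) : lap (Dy^[b] u) = Dy^[b] (lap u) := by
  induction b with
  | zero => rfl
  | succ a ih => rw [Function.iterate_succ_apply', Function.iterate_succ_apply', lap_Dy, ih]

lemma lap_DxDy (a b : ℕ) (u : Pt → ℝ) :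
    lap (Dx^[a] (Dy^[b] u)) = Dx^[a] (Dy^[b] (lap u)) := by
  rw [lap_Dx_iter, lap_Dy_iter]

lemma Dx_Dy_iter (b : ℕ) (u : Pt → ℝ) : Dx (Dy^[b] u) = Dy^[b] (Dx u) := by
  induction b with
  | zero => rfl
  | succ b ih => rw [Function.iterate_succ_apply', Function.iterate_succ_apply', Dx_Dy, ih]

lemma Dx_iter_Dy_iter (a b : ℕ) (u : Pt → ℝ) : Dx^[a] (Dy^[b] u) = Dy^[b] (Dx^[a] u) := by
  induction a with
  | zero => rfl
  | succ a ih => rw [Function.iterate_succ_apply', ih, Dx_Dy_iter, ← Function.iterate_succ_apply' Dx]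

/-- Differences of a function vanishing on a box vanish on a smaller box. -/
lemma diff_zero (f : Pt → ℝ) (x : Pt) (r : ℤ) (hf : ∀ z, dinf x z < r → f z = 0) (a b : ℕ) :
    ∀ z, dinf x z + (a + b : ℕ) < r → (Dx^[a] (Dy^[b] f)) z = 0 := by
  have h1 : ∀ b : ℕ, ∀ z, dinf x z + b < r → (Dy^[b] f) z = 0 := by
    intro b
    induction b with
    | zero => intro z hz; exact hf z (by simpa using hz)
    | succ b ih =>
      intro z hz
      rw [Function.iterate_succ_apply', Dy, ih, ih]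
      · simp
      · push_cast at hz; linarith
      · have : dinf x (z.1, z.2 + 1) ≤ dinf x z + 1 := by
          refine le_trans (dinf_triangle x z _) ?_
          gcongr
          simp [dinf_def]
        push_cast at hz
        linarith
  induction a with
  | zero => intro z hz; exact h1 b z (by simpa using hz)
  | succ a ih =>
    intro z hz
    rw [Function.iterate_succ_apply', Dx, ih, ih]
    · simp
    · push_cast at hz ⊢; linarith
    · have : dinf x (z.1 + 1, z.2) ≤ dinf x z + 1 := by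
        refine le_trans (dinf_triangle x z _) ?_
        gcongr
        simp [dinf_def]
      push_cast at hz ⊢
      linarith

/-- One step of the induction. -/
lemma diff_step (u : Pt → ℝ) (x : Pt) (n m : ℕ) (hm : 1 ≤ m) (A : ℕ → ℝ) (Φ : ℕ → ℝ) (k : ℕ)
    (h0 : ∀ z, dinf x z ≤ n → |u z| ≤ A 0)
    (hΦ : ∀ a b : ℕ, a + b < k → ∀ z, dinf x z + (a + b : ℕ) < n →
      |(Dx^[a] (Dy^[b] (lap u))) z| ≤ Φ (a + b))
    (hA : ∀ l, l < k → 2 * A l / m + m * Φ l ≤ A (l + 1)) :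
    ∀ l, l ≤ k → ∀ a b : ℕ, a + b = l → ∀ z, dinf x z + (l * m : ℕ) ≤ n →
      |(Dx^[a] (Dy^[b] u)) z| ≤ A l := by
  intro l
  induction l with
  | zero =>
    intro _ a b hab z hz
    obtain ⟨rfl, rfl⟩ : a = 0 ∧ b = 0 := by omega
    exact h0 z (by simpa using hz)
  | succ l ih =>
    intro hl a b hab z hz
    have key : ∀ a b : ℕ, a + b = l →
        |Dx (Dx^[a] (Dy^[b] u)) z| ≤ A (l + 1) ∧ |Dy (Dx^[a] (Dy^[b] u)) z| ≤ A (l + 1) := by
      intro a b hab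
      have hB : ∀ w, dinf z w ≤ m → |(Dx^[a] (Dy^[b] u)) w| ≤ A l := by
        intro w hw
        apply ih (by omega) a b hab w
        have := dinf_triangle x z w
        push_cast at hz ⊢
        linarith
      have hL : ∀ w, dinf z w < m → |lap (Dx^[a] (Dy^[b] u)) w| ≤ Φ l := by
        intro w hw
        rw [lap_DxDy, ← hab]
        apply hΦ a b (by omega)
        have := dinf_triangle x z w
        rw [hab]
        have hlm : (l : ℤ) ≤ l * m := by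
          have : (1 : ℤ) ≤ m := by exact_mod_cast hm
          nlinarith [Int.natCast_nonneg l]
        push_cast at hz ⊢
        linarith
      exact ⟨(grad_Dx _ z m hm _ _ hB hL).trans (hA l (by omega)),
        (grad_Dy _ z m hm _ _ hB hL).trans (hA l (by omega))⟩
    rcases Nat.eq_zero_or_pos a with rfl | ha
    · obtain ⟨b', rfl⟩ : ∃ b', b = b' + 1 := ⟨b - 1, by omega⟩
      have := (key 0 b' (by omega)).2
      simpa [Function.iterate_succ_apply'] using this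
    · obtain ⟨a', rfl⟩ : ∃ a', a = a' + 1 := ⟨a - 1, by omega⟩
      have := (key a' b (by omega)).1
      rwa [Function.iterate_succ_apply']

/-- **Iterated difference estimate.** -/
theorem diff_le (k n : ℕ) (hk : 1 ≤ k) (hkn : 2 * k ≤ n) (u : Pt → ℝ) (x : Pt) (M Φ : ℝ)
    (hM : ∀ z, dinf x z ≤ n → |u z| ≤ M)
    (hΦ : ∀ a b : ℕ, a + b < k → ∀ z, dinf x z + (a + b : ℕ) < n →
      |(Dx^[a] (Dy^[b] (lap u))) z| ≤ Φ * ((n : ℝ)⁻¹) ^ (a + b))
    (a b : ℕ) (hab : a + b ≤ k) (z : Pt) (hz : 2 * dinf x z ≤ n) :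
    |(Dx^[a] (Dy^[b] u)) z| ≤ (16 * k) ^ (a + b) * ((n : ℝ)⁻¹) ^ (a + b) * (M + n ^ 2 * Φ) := by
  set m := n / (2 * k) with hmdef
  have hk0 : 0 < 2 * k := by omega
  have hm : 1 ≤ m := (Nat.one_le_div_iff hk0).2 hkn
  have hmn : 2 * k * m ≤ n := Nat.mul_div_le n (2 * k)
  have hn0 : (0 : ℝ) < n := by
    have : 0 < n := by omega
    exact_mod_cast this
  have hm0 : (0 : ℝ) < m := by exact_mod_cast hm
  have hk0' : (0 : ℝ) < k := by exact_mod_cast hk
  have hinv : (1 : ℝ) / m ≤ 4 * k * (n : ℝ)⁻¹ := by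
    have h1 : n < 2 * k * (m + 1) := by
      have := Nat.lt_mul_div_succ n hk0
      simpa [hmdef] using this
    have h2 : n ≤ 4 * k * m := by nlinarith
    have h3 : (n : ℝ) ≤ 4 * k * m := by exact_mod_cast h2
    rw [div_le_iff₀ hm0, mul_assoc, mul_comm ((n : ℝ)⁻¹), ← mul_assoc, ← div_eq_mul_inv,
      le_div_iff₀ hn0]
    linarith
  have hM0 : 0 ≤ M := le_trans (abs_nonneg _) (hM x (by rw [dinf_self]; positivity))
  have hΦ0 : 0 ≤ Φ := by
    have := hΦ 0 0 (by omega) x (by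
      rw [dinf_self]
      simp
      omega)
    simp at this
    exact le_trans (abs_nonneg _) this
  set S := M + (n : ℝ) ^ 2 * Φ with hS
  have hS0 : 0 ≤ S := by positivity
  have hMS : M ≤ S := by
    rw [hS]
    have : 0 ≤ (n : ℝ) ^ 2 * Φ := by positivity
    linarith
  have hΦS : (n : ℝ) ^ 2 * Φ ≤ S := by rw [hS]; linarith
  have hmn' : (m : ℝ) ≤ n := by
    have : m ≤ n := Nat.div_le_self _ _
    exact_mod_cast this
  refine diff_step u x n m hm (fun l => (16 * (k : ℝ)) ^ l * ((n : ℝ)⁻¹) ^ l * S)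
    (fun l => Φ * ((n : ℝ)⁻¹) ^ l) k ?_ hΦ ?_ (a + b) hab a b rfl z ?_
  · intro z hz
    simp only [pow_zero, one_mul]
    exact (hM z hz).trans hMS
  · intro l _
    have e1 : 2 * ((16 * (k : ℝ)) ^ l * ((n : ℝ)⁻¹) ^ l * S) / m
        ≤ 2 * ((16 * (k : ℝ)) ^ l * ((n : ℝ)⁻¹) ^ l * S) * (4 * k * (n : ℝ)⁻¹) := by
      rw [div_eq_mul_one_div]
      gcongr
    have e2 : (m : ℝ) * (Φ * ((n : ℝ)⁻¹) ^ l) ≤ ((n : ℝ)⁻¹) ^ (l + 1) * S := by
      calc (m : ℝ) * (Φ * ((n : ℝ)⁻¹) ^ l) ≤ n * (Φ * ((n : ℝ)⁻¹) ^ l) := by gcongr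
        _ = ((n : ℝ)⁻¹) ^ (l + 1) * ((n : ℝ) ^ 2 * Φ) := by
          rw [pow_succ]
          field_simp
        _ ≤ _ := by gcongr
    have e3 : ((n : ℝ)⁻¹) ^ (l + 1) * S ≤
        (16 * (k : ℝ)) ^ l * (8 * k) * ((n : ℝ)⁻¹) ^ (l + 1) * S := by
      have h1 : (1 : ℝ) ≤ (16 * (k : ℝ)) ^ l * (8 * k) := by
        have hk1 : (1 : ℝ) ≤ k := by exact_mod_cast hk
        have : (1 : ℝ) ≤ (16 * (k : ℝ)) ^ l := one_le_pow₀ (by linarith)
        nlinarith
      have h2 : 0 ≤ ((n : ℝ)⁻¹) ^ (l + 1) * S := by positivity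
      nlinarith
    have e4 : 2 * ((16 * (k : ℝ)) ^ l * ((n : ℝ)⁻¹) ^ l * S) * (4 * k * (n : ℝ)⁻¹)
        = (16 * (k : ℝ)) ^ l * (8 * k) * ((n : ℝ)⁻¹) ^ (l + 1) * S := by
      rw [pow_succ ((n : ℝ)⁻¹)]
      ring
    have e5 : (16 * (k : ℝ)) ^ (l + 1) * ((n : ℝ)⁻¹) ^ (l + 1) * S
        = (16 * (k : ℝ)) ^ l * (8 * k) * ((n : ℝ)⁻¹) ^ (l + 1) * S
          + (16 * (k : ℝ)) ^ l * (8 * k) * ((n : ℝ)⁻¹) ^ (l + 1) * S := by
      rw [pow_succ (16 * (k : ℝ))]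
      ring
    linarith
  · have h1 : (a + b) * m ≤ k * m := Nat.mul_le_mul_right _ hab
    have h2 : 2 * ((a + b) * m) ≤ n := by nlinarith
    have h3 : (2 : ℤ) * ((a + b) * m : ℕ) ≤ n := by exact_mod_cast h2
    linarith

/-- **Iterated difference estimate for discrete harmonic functions.** -/
theorem diff_harm_le (k n : ℕ) (hk : 1 ≤ k) (hkn : 2 * k ≤ n) (u : Pt → ℝ) (x : Pt) (M : ℝ)
    (hM : ∀ z, dinf x z ≤ n → |u z| ≤ M) (hu : ∀ z, dinf x z < n → lap u z = 0)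
    (a b : ℕ) (hab : a + b ≤ k) (z : Pt) (hz : 2 * dinf x z ≤ n) :
    |(Dx^[a] (Dy^[b] u)) z| ≤ (16 * k) ^ (a + b) * ((n : ℝ)⁻¹) ^ (a + b) * M := by
  have := diff_le k n hk hkn u x M 0 hM (by
    intro a b _ z hz
    rw [diff_zero (lap u) x n hu a b z hz]
    simp) a b hab z hz
  simpa using this

end Vale.Agent.P155.G
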