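import Vale.Agent.P155.G.Diff

/-!
# P155, block G3 : Green's identity, mean value inequality

* `green_id` : summation by parts.
* `mean_value` : `n ^ 2 * v x ≤ 72 * ∑ z ∈ box x n, v z` for nonnegative functions `v` which are
  discrete subharmonic inside the box.  The proof uses the explicit kernel
  `(y - 1 - log y) / 2`, `y = (|z - x|² + 1) / (n² + 1)`, and the exact inequality
  `∏ (|z ± e_i|² + 1) ≥ (|z|² + 1) ^ 4`.
-/

namespace Vale.Agent.P155.G

open Finset

/-! ### Summation by parts -/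

/-- Translation of the lattice. -/
def tr (a b : ℤ) : Pt ≃ Pt where
  toFun z := (z.1 + a, z.2 + b)
  invFun z := (z.1 - a, z.2 - b)
  left_inv z := by ext <;> simp
  right_inv z := by ext <;> simp

lemma finsum_tr (v g : Pt → ℝ) (e : Pt ≃ Pt) :
    ∑ᶠ z, v z * g (e z) = ∑ᶠ z, v (e.symm z) * g z :=
  finsum_eq_of_bijective e e.bijective (fun z => by simp)

lemma fin_tr (v g : Pt → ℝ) (hg : g.support.Finite) (e : Pt ≃ Pt) :
    (Function.support fun z => v z * g (e z)).Finite := by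
  refine (hg.preimage (f := e) e.injective.injOn).subset ?_
  intro z hz
  exact right_ne_zero_of_mul hz

/-- **Green's identity.** -/
theorem green_id (v g : Pt → ℝ) (hg : g.support.Finite) :
    ∑ᶠ z, v z * lap g z = ∑ᶠ z, g z * lap v z := by
  have f1 := fin_tr v g hg (tr 1 0)
  have f2 := fin_tr v g hg (tr (-1) 0)
  have f3 := fin_tr v g hg (tr 0 1)
  have f4 := fin_tr v g hg (tr 0 (-1))
  have f5 := fin_tr v g hg (Equiv.refl _)
  have f5' : (Function.support fun z => 4 * (v z * g ((Equiv.refl Pt) z))).Finite :=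
    f5.subset (fun z hz => right_ne_zero_of_mul hz)
  have L : ∑ᶠ z, v z * lap g z = ∑ᶠ z, v z * g (tr 1 0 z) + ∑ᶠ z, v z * g (tr (-1) 0 z)
      + ∑ᶠ z, v z * g (tr 0 1 z) + ∑ᶠ z, v z * g (tr 0 (-1) z)
      - ∑ᶠ z, 4 * (v z * g ((Equiv.refl Pt) z)) := by
    rw [← finsum_add_distrib f1 f2, ← finsum_add_distrib _ f3, ← finsum_add_distrib _ f4,
      ← finsum_sub_distrib _ f5']
    · refine finsum_congr fun z => ?_
      simp only [lap, tr, Equiv.coe_fn_mk, add_zero, Equiv.refl_apply, ← sub_eq_add_neg]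
      ring
    · exact ((f1.union f2).subset (Function.support_add _ _)).union f3 |>.subset
        (Function.support_add _ _) |>.union f4 |>.subset (Function.support_add _ _)
    · exact ((f1.union f2).subset (Function.support_add _ _)).union f3 |>.subset
        (Function.support_add _ _)
    · exact (f1.union f2).subset (Function.support_add _ _)
  have g1 := fin_tr (fun z => v ((tr 1 0).symm z)) g hg (Equiv.refl _)
  have g2 := fin_tr (fun z => v ((tr (-1) 0).symm z)) g hg (Equiv.refl _)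
  have g3 := fin_tr (fun z => v ((tr 0 1).symm z)) g hg (Equiv.refl _)
  have g4 := fin_tr (fun z => v ((tr 0 (-1)).symm z)) g hg (Equiv.refl _)
  rw [L, finsum_tr v g (tr 1 0), finsum_tr v g (tr (-1) 0), finsum_tr v g (tr 0 1),
    finsum_tr v g (tr 0 (-1))]
  simp only [Equiv.refl_apply] at g1 g2 g3 g4 f5' ⊢
  rw [← finsum_add_distrib g1 g2, ← finsum_add_distrib _ g3, ← finsum_add_distrib _ g4,
      ← finsum_sub_distrib _ f5']
  · refine finsum_congr fun z => ?_
    simp only [lap, tr, Equiv.coe_fn_symm_mk, sub_zero, sub_neg_eq_add]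
    ring
  · exact ((g1.union g2).subset (Function.support_add _ _)).union g3 |>.subset
        (Function.support_add _ _) |>.union g4 |>.subset (Function.support_add _ _)
  · exact ((g1.union g2).subset (Function.support_add _ _)).union g3 |>.subset
        (Function.support_add _ _)
  · exact (g1.union g2).subset (Function.support_add _ _)

/-! ### The kernel -/

/-- `(|z - x|² + 1) / (N + 1)` -/
noncomputable def yk (x : Pt) (N : ℕ) (z : Pt) : ℝ :=
  (((z.1 - x.1 : ℤ) : ℝ) ^ 2 + ((z.2 - x.2 : ℤ) : ℝ) ^ 2 + 1) / (N + 1)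

/-- `(y - 1 - log y) / 2` -/
noncomputable def ga (x : Pt) (N : ℕ) (z : Pt) : ℝ := (yk x N z - 1 - Real.log (yk x N z)) / 2

/-- the truncated kernel -/
noncomputable def gk (x : Pt) (N : ℕ) (z : Pt) : ℝ := if yk x N z ≤ 1 then ga x N z else 0

lemma yk_pos (x : Pt) (N : ℕ) (z : Pt) : 0 < yk x N z := by unfold yk; positivity

lemma ga_nonneg (x : Pt) (N : ℕ) (z : Pt) : 0 ≤ ga x N z := by
  unfold ga
  have := Real.log_le_sub_one_of_pos (yk_pos x N z)
  linarith

lemma gk_nonneg (x : Pt) (N : ℕ) (z : Pt) : 0 ≤ gk x N z := by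
  unfold gk
  split_ifs
  · exact ga_nonneg x N z
  · exact le_rfl

lemma gk_le_ga (x : Pt) (N : ℕ) (z : Pt) : gk x N z ≤ ga x N z := by
  unfold gk
  split_ifs
  · exact le_rfl
  · exact ga_nonneg x N z

/-- The exact inequality behind the subharmonicity of `log (|z|² + 1)`. -/
lemma log_sub (a b : ℝ) :
    4 * Real.log (a ^ 2 + b ^ 2 + 1) ≤ Real.log ((a + 1) ^ 2 + b ^ 2 + 1) +
      Real.log ((a - 1) ^ 2 + b ^ 2 + 1) + Real.log (a ^ 2 + (b + 1) ^ 2 + 1) +
      Real.log (a ^ 2 + (b - 1) ^ 2 + 1) := by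
  rw [← Real.log_mul (by positivity) (by positivity), ← Real.log_mul (by positivity) (by positivity),
    ← Real.log_mul (by positivity) (by positivity)]
  have : 4 * Real.log (a ^ 2 + b ^ 2 + 1) = Real.log ((a ^ 2 + b ^ 2 + 1) ^ 4) := by
    rw [Real.log_pow]; norm_num
  rw [this]
  apply Real.log_le_log (by positivity)
  set s := a ^ 2 + b ^ 2 + 1 with hs
  have hs1 : 1 ≤ s := by rw [hs]; nlinarith [sq_nonneg a, sq_nonneg b]
  have e1 : ((a + 1) ^ 2 + b ^ 2 + 1) * ((a - 1) ^ 2 + b ^ 2 + 1) = (s + 1) ^ 2 - 4 * a ^ 2 := by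
    rw [hs]; ring
  have e2 : (a ^ 2 + (b + 1) ^ 2 + 1) * (a ^ 2 + (b - 1) ^ 2 + 1) = (s + 1) ^ 2 - 4 * b ^ 2 := by
    rw [hs]; ring
  rw [e1, mul_assoc, e2]
  have e3 : ((s + 1) ^ 2 - 4 * a ^ 2) * ((s + 1) ^ 2 - 4 * b ^ 2)
      = (s + 1) ^ 4 - 4 * (s + 1) ^ 2 * (s - 1) + 16 * (a ^ 2 * b ^ 2) := by
    have : a ^ 2 + b ^ 2 = s - 1 := by rw [hs]; ring
    rw [← this]; ring
  rw [e3]
  have : 0 ≤ a ^ 2 * b ^ 2 := by positivity
  nlinarith

lemma lap_ga_le (x : Pt) (N : ℕ) (z : Pt) : lap (ga x N) z ≤ 2 / (N + 1) := by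
  set a : ℝ := ((z.1 - x.1 : ℤ) : ℝ) with ha
  set b : ℝ := ((z.2 - x.2 : ℤ) : ℝ) with hb
  have hN : (0 : ℝ) < N + 1 := by positivity
  have y0 : yk x N z = (a ^ 2 + b ^ 2 + 1) / (N + 1) := rfl
  have y1 : yk x N (z.1 + 1, z.2) = ((a + 1) ^ 2 + b ^ 2 + 1) / (N + 1) := by
    simp only [yk, ha, hb]; push_cast; ring
  have y2 : yk x N (z.1 - 1, z.2) = ((a - 1) ^ 2 + b ^ 2 + 1) / (N + 1) := by
    simp only [yk, ha, hb]; push_cast; ring
  have y3 : yk x N (z.1, z.2 + 1) = (a ^ 2 + (b + 1) ^ 2 + 1) / (N + 1) := by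
    simp only [yk, ha, hb]; push_cast; ring
  have y4 : yk x N (z.1, z.2 - 1) = (a ^ 2 + (b - 1) ^ 2 + 1) / (N + 1) := by
    simp only [yk, ha, hb]; push_cast; ring
  have h := log_sub a b
  simp only [lap, ga]
  rw [y0, y1, y2, y3, y4]
  rw [Real.log_div (by positivity) hN.ne', Real.log_div (by positivity) hN.ne',
    Real.log_div (by positivity) hN.ne', Real.log_div (by positivity) hN.ne',
    Real.log_div (by positivity) hN.ne']
  have e : ((a + 1) ^ 2 + b ^ 2 + 1) / ((N : ℝ) + 1) + ((a - 1) ^ 2 + b ^ 2 + 1) / (N + 1)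
      + (a ^ 2 + (b + 1) ^ 2 + 1) / (N + 1) + (a ^ 2 + (b - 1) ^ 2 + 1) / (N + 1)
      - 4 * ((a ^ 2 + b ^ 2 + 1) / (N + 1)) = 4 / (N + 1) := by
    field_simp
    ring
  have e' : (2 : ℝ) / (N + 1) = 4 / (N + 1) / 2 := by ring
  rw [e']
  linarith

/-- `g` is small just inside the truncation. -/
lemma gk_small (x : Pt) (n : ℕ) (hn : 4 ≤ n) (z z' : Pt) (hz : 1 < yk x (n ^ 2) z)
    (hzz : yk x (n ^ 2) z - yk x (n ^ 2) z' ≤ 3 * n / (n ^ 2 + 1)) :
    gk x (n ^ 2) z' ≤ 18 / (n ^ 2 + 1) := by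
  have hn' : (4 : ℝ) ≤ n := by exact_mod_cast hn
  unfold gk
  split_ifs with h
  · set y' := yk x (n ^ 2) z' with hy'
    have hd : 1 - y' ≤ 3 * n / (n ^ 2 + 1) := by linarith
    have hd0 : 0 ≤ 1 - y' := by linarith
    have hy4 : 1 / 4 ≤ y' := by
      have : 3 * (n : ℝ) / (n ^ 2 + 1) ≤ 3 / 4 := by
        rw [div_le_div_iff₀ (by positivity) (by norm_num)]
        nlinarith
      linarith
    have hlog : 1 - y'⁻¹ ≤ Real.log y' := Real.one_sub_inv_le_log_of_pos (by linarith)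
    have h1 : ga x (n ^ 2) z' ≤ (y' - 1 - (1 - y'⁻¹)) / 2 := by
      unfold ga
      rw [← hy']
      linarith
    have h2 : (y' - 1 - (1 - y'⁻¹)) / 2 = (1 - y') ^ 2 / (2 * y') := by
      have : y' ≠ 0 := by linarith
      field_simp
      ring
    have h3 : (1 - y') ^ 2 ≤ 9 / ((n : ℝ) ^ 2 + 1) := by
      calc (1 - y') ^ 2 ≤ (3 * (n : ℝ) / ((n : ℝ) ^ 2 + 1)) ^ 2 := by gcongr
        _ = 9 * ((n : ℝ) ^ 2 / ((n : ℝ) ^ 2 + 1)) / ((n : ℝ) ^ 2 + 1) := by
            field_simp; norm_num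
        _ ≤ 9 * 1 / ((n : ℝ) ^ 2 + 1) := by
            gcongr
            rw [div_le_one (by positivity)]
            linarith
        _ = _ := by ring
    calc ga x (n ^ 2) z' ≤ (1 - y') ^ 2 / (2 * y') := h1.trans h2.le
      _ ≤ (9 / (n ^ 2 + 1)) / (2 * (1 / 4)) := by gcongr
      _ = 18 / (n ^ 2 + 1) := by ring
  · positivity

lemma lap_gk_le (x : Pt) (n : ℕ) (hn : 4 ≤ n) (z : Pt) :
    lap (gk x (n ^ 2)) z ≤ 72 / (n ^ 2 + 1) := by
  have hn' : (4 : ℝ) ≤ n := by exact_mod_cast hn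
  by_cases h : yk x (n ^ 2) z ≤ 1
  · have h0 : gk x (n ^ 2) z = ga x (n ^ 2) z := by unfold gk; rw [if_pos h]
    have h1 := gk_le_ga x (n ^ 2) (z.1 + 1, z.2)
    have h2 := gk_le_ga x (n ^ 2) (z.1 - 1, z.2)
    have h3 := gk_le_ga x (n ^ 2) (z.1, z.2 + 1)
    have h4 := gk_le_ga x (n ^ 2) (z.1, z.2 - 1)
    have h5 := lap_ga_le x (n ^ 2) z
    have h6 : lap (gk x (n ^ 2)) z ≤ lap (ga x (n ^ 2)) z := by
      unfold lap
      rw [h0]
      linarith
    refine (h6.trans h5).trans ?_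
    push_cast
    gcongr
    norm_num
  · push Not at h
    have h0 : gk x (n ^ 2) z = 0 := by unfold gk; rw [if_neg (not_le.2 h)]
    -- every neighbour is either outside or close to the truncation
    have key : ∀ z' : Pt, (∀ s : ℝ, yk x (n ^ 2) z' ≤ 1 → yk x (n ^ 2) z - yk x (n ^ 2) z'
        ≤ 3 * n / (n ^ 2 + 1)) → gk x (n ^ 2) z' ≤ 18 / (n ^ 2 + 1) := by
      intro z' hz'
      by_cases h' : yk x (n ^ 2) z' ≤ 1
      · exact gk_small x n hn z z' h (hz' 0 h')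
      · have : gk x (n ^ 2) z' = 0 := by unfold gk; rw [if_neg h']
        rw [this]; positivity
    set a : ℝ := ((z.1 - x.1 : ℤ) : ℝ) with ha
    set b : ℝ := ((z.2 - x.2 : ℤ) : ℝ) with hb
    have hN : (0 : ℝ) < (n : ℝ) ^ 2 + 1 := by positivity
    have y0 : yk x (n ^ 2) z = (a ^ 2 + b ^ 2 + 1) / (n ^ 2 + 1) := by
      simp only [yk, ha, hb]; push_cast; ring
    -- an arithmetic fact
    have arith : ∀ c d : ℝ, (c ^ 2 + d ^ 2 + 1) / ((n : ℝ) ^ 2 + 1) ≤ 1 →
        2 * |c| + 1 ≤ 3 * n := by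
      intro c d hcd
      rw [div_le_one hN] at hcd
      have : |c| ≤ n := abs_le_of_sq_le_sq (by nlinarith [sq_nonneg d]) (by positivity)
      linarith
    have k1 : gk x (n ^ 2) (z.1 + 1, z.2) ≤ 18 / (n ^ 2 + 1) := by
      apply key
      intro _ hy
      have y1 : yk x (n ^ 2) (z.1 + 1, z.2) = ((a + 1) ^ 2 + b ^ 2 + 1) / (n ^ 2 + 1) := by
        simp only [yk, ha, hb]; push_cast; ring
      rw [y1] at hy ⊢
      have := arith _ _ hy
      rw [y0, ← sub_div]
      gcongr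
      have := neg_abs_le (a + 1)
      linarith
    have k2 : gk x (n ^ 2) (z.1 - 1, z.2) ≤ 18 / (n ^ 2 + 1) := by
      apply key
      intro _ hy
      have y1 : yk x (n ^ 2) (z.1 - 1, z.2) = ((a - 1) ^ 2 + b ^ 2 + 1) / (n ^ 2 + 1) := by
        simp only [yk, ha, hb]; push_cast; ring
      rw [y1] at hy ⊢
      have := arith _ _ hy
      rw [y0, ← sub_div]
      gcongr
      have := le_abs_self (a - 1)
      linarith
    have k3 : gk x (n ^ 2) (z.1, z.2 + 1) ≤ 18 / (n ^ 2 + 1) := by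
      apply key
      intro _ hy
      have y1 : yk x (n ^ 2) (z.1, z.2 + 1) = (a ^ 2 + (b + 1) ^ 2 + 1) / (n ^ 2 + 1) := by
        simp only [yk, ha, hb]; push_cast; ring
      rw [y1] at hy ⊢
      have := arith (b + 1) a (by rwa [add_comm ((b + 1) ^ 2)])
      rw [y0, ← sub_div]
      gcongr
      have := neg_abs_le (b + 1)
      linarith
    have k4 : gk x (n ^ 2) (z.1, z.2 - 1) ≤ 18 / (n ^ 2 + 1) := by
      apply key
      intro _ hy
      have y1 : yk x (n ^ 2) (z.1, z.2 - 1) = (a ^ 2 + (b - 1) ^ 2 + 1) / (n ^ 2 + 1) := by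
        simp only [yk, ha, hb]; push_cast; ring
      rw [y1] at hy ⊢
      have := arith (b - 1) a (by rwa [add_comm ((b - 1) ^ 2)])
      rw [y0, ← sub_div]
      gcongr
      have := le_abs_self (b - 1)
      linarith
    unfold lap
    rw [h0]
    have e : (72 : ℝ) / (n ^ 2 + 1) = 4 * (18 / (n ^ 2 + 1)) := by ring
    rw [e]
    linarith

lemma gk_eq_zero (x : Pt) (n : ℕ) (hn : 1 ≤ n) (z : Pt) (hz : (n : ℤ) ≤ dinf x z) :
    gk x (n ^ 2) z = 0 := by
  have hN : (0 : ℝ) < (n : ℝ) ^ 2 + 1 := by positivity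
  have hy : 1 ≤ yk x (n ^ 2) z := by
    unfold yk
    push_cast
    rw [le_div_iff₀ hN, one_mul]
    rw [dinf_def, le_max_iff] at hz
    rcases hz with h | h
    · have h1 : (n : ℝ) ≤ |((z.1 : ℝ) - x.1)| := by
        rw [abs_sub_comm] at h
        exact_mod_cast h
      have h2 : (n : ℝ) ^ 2 ≤ ((z.1 : ℝ) - x.1) ^ 2 := by
        rw [← sq_abs ((z.1 : ℝ) - x.1)]; gcongr
      nlinarith [sq_nonneg ((z.2 : ℝ) - x.2)]
    · have h1 : (n : ℝ) ≤ |((z.2 : ℝ) - x.2)| := by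
        rw [abs_sub_comm] at h
        exact_mod_cast h
      have h2 : (n : ℝ) ^ 2 ≤ ((z.2 : ℝ) - x.2) ^ 2 := by
        rw [← sq_abs ((z.2 : ℝ) - x.2)]; gcongr
      nlinarith [sq_nonneg ((z.1 : ℝ) - x.1)]
  unfold gk
  split_ifs with h
  · have : yk x (n ^ 2) z = 1 := le_antisymm h hy
    unfold ga
    rw [this]
    simp
  · rfl

lemma lap_gk_center (x : Pt) (n : ℕ) (hn : 4 ≤ n) : lap (gk x (n ^ 2)) x ≤ -1 := by
  have hn' : (4 : ℝ) ≤ n := by exact_mod_cast hn
  have hN : (0 : ℝ) < (n : ℝ) ^ 2 + 1 := by positivity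
  have y0 : yk x (n ^ 2) x = 1 / (n ^ 2 + 1) := by
    simp [yk]
  have hy0 : yk x (n ^ 2) x ≤ 1 := by
    rw [y0, div_le_one hN]; nlinarith
  have h0 : gk x (n ^ 2) x = ga x (n ^ 2) x := by unfold gk; rw [if_pos hy0]
  have h1 := gk_le_ga x (n ^ 2) (x.1 + 1, x.2)
  have h2 := gk_le_ga x (n ^ 2) (x.1 - 1, x.2)
  have h3 := gk_le_ga x (n ^ 2) (x.1, x.2 + 1)
  have h4 := gk_le_ga x (n ^ 2) (x.1, x.2 - 1)
  have h6 : lap (gk x (n ^ 2)) x ≤ lap (ga x (n ^ 2)) x := by
    unfold lap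
    rw [h0]
    linarith
  refine h6.trans ?_
  have y1 : yk x (n ^ 2) (x.1 + 1, x.2) = 2 / (n ^ 2 + 1) := by
    simp [yk]; norm_num
  have y2 : yk x (n ^ 2) (x.1 - 1, x.2) = 2 / (n ^ 2 + 1) := by
    simp [yk]; norm_num
  have y3 : yk x (n ^ 2) (x.1, x.2 + 1) = 2 / (n ^ 2 + 1) := by
    simp [yk]; norm_num
  have y4 : yk x (n ^ 2) (x.1, x.2 - 1) = 2 / (n ^ 2 + 1) := by
    simp [yk]; norm_num
  simp only [lap, ga]
  rw [y1, y2, y3, y4, y0, Real.log_div (by norm_num) hN.ne', Real.log_div (by norm_num) hN.ne']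
  simp only [Real.log_one]
  have hlog : 0.6931471803 < Real.log 2 := Real.log_two_gt_d9
  have hd : 2 / ((n : ℝ) ^ 2 + 1) - 1 / (n ^ 2 + 1) ≤ 1 / 17 := by
    rw [← sub_div, div_le_div_iff₀ hN (by norm_num)]
    nlinarith
  linarith

lemma mem_box {x z : Pt} {n : ℕ} : z ∈ box x n ↔ dinf x z ≤ n := by
  rw [dinf_le_iff, abs_le, abs_le, box, mem_product, mem_Icc, mem_Icc]
  constructor
  · rintro ⟨⟨h1, h2⟩, h3, h4⟩
    exact ⟨⟨by linarith, by linarith⟩, by linarith, by linarith⟩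
  · rintro ⟨⟨h1, h2⟩, h3, h4⟩
    exact ⟨⟨by linarith, by linarith⟩, by linarith, by linarith⟩

/-- **Mean value inequality** for nonnegative subharmonic functions. -/
theorem mean_value (v : Pt → ℝ) (x : Pt) (n : ℕ) (hv : ∀ z, dinf x z ≤ n → 0 ≤ v z)
    (hs : ∀ z, dinf x z < n → 0 ≤ lap v z) :
    (n : ℝ) ^ 2 * v x ≤ 72 * ∑ z ∈ box x n, v z := by
  have hx : x ∈ box x n := mem_box.2 (by rw [dinf_self]; positivity)
  have hv' : ∀ z ∈ box x n, 0 ≤ v z := fun z hz => hv z (mem_box.1 hz)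
  have hle : v x ≤ ∑ z ∈ box x n, v z := Finset.single_le_sum hv' hx
  have hv0 : 0 ≤ v x := hv' x hx
  by_cases hn : n < 4
  · have h1 : (n : ℝ) ^ 2 ≤ 72 := by
      have : n ^ 2 ≤ 72 := by nlinarith
      exact_mod_cast this
    nlinarith
  push Not at hn
  have hn' : (4 : ℝ) ≤ n := by exact_mod_cast hn
  have hN : (0 : ℝ) < (n : ℝ) ^ 2 + 1 := by positivity
  set g := gk x (n ^ 2) with hg
  have hsupp : g.support ⊆ (box x n : Set Pt) := by
    intro z hz
    rw [Finset.mem_coe, mem_box]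
    by_contra h
    push Not at h
    exact hz (gk_eq_zero x n (by omega) z h.le)
  have hfin : g.support.Finite := (box x n).finite_toSet.subset hsupp
  have hG := green_id v g hfin
  have hR : 0 ≤ ∑ᶠ z, g z * lap v z := by
    apply finsum_nonneg
    intro z
    by_cases hz : dinf x z < n
    · exact mul_nonneg (gk_nonneg x _ z) (hs z hz)
    · push Not at hz
      rw [hg, gk_eq_zero x n (by omega) z hz, zero_mul]
  have hLsupp : (Function.support fun z => v z * lap g z) ⊆ (box x n : Set Pt) := by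
    intro z hz
    rw [Finset.mem_coe, mem_box]
    by_contra h
    push Not at h
    have hz' : lap g z ≠ 0 := right_ne_zero_of_mul hz
    apply hz'
    have n0 : (n : ℤ) + 1 ≤ dinf x z := h
    have z0 : g z = 0 := gk_eq_zero x n (by omega) z (by linarith)
    have z1 : g (z.1 + 1, z.2) = 0 := gk_eq_zero x n (by omega) _ (by
      have := dinf_triangle x (z.1 + 1, z.2) z
      have : dinf (z.1 + 1, z.2) z = 1 := by simp [dinf_def]
      linarith)
    have z2 : g (z.1 - 1, z.2) = 0 := gk_eq_zero x n (by omega) _ (by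
      have := dinf_triangle x (z.1 - 1, z.2) z
      have : dinf (z.1 - 1, z.2) z = 1 := by simp [dinf_def]
      linarith)
    have z3 : g (z.1, z.2 + 1) = 0 := gk_eq_zero x n (by omega) _ (by
      have := dinf_triangle x (z.1, z.2 + 1) z
      have : dinf (z.1, z.2 + 1) z = 1 := by simp [dinf_def]
      linarith)
    have z4 : g (z.1, z.2 - 1) = 0 := gk_eq_zero x n (by omega) _ (by
      have := dinf_triangle x (z.1, z.2 - 1) z
      have : dinf (z.1, z.2 - 1) z = 1 := by simp [dinf_def]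
      linarith)
    simp only [lap, z0, z1, z2, z3, z4]
    ring
  rw [finsum_eq_sum_of_support_subset _ hLsupp] at hG
  rw [← hG, ← Finset.add_sum_erase _ _ hx] at hR
  have h1 : v x * lap g x ≤ - v x := by
    have := lap_gk_center x n hn
    nlinarith
  have h2 : ∑ z ∈ (box x n).erase x, v z * lap g z ≤ (72 / (n ^ 2 + 1)) * ∑ z ∈ box x n, v z := by
    calc ∑ z ∈ (box x n).erase x, v z * lap g z
        ≤ ∑ z ∈ (box x n).erase x, v z * (72 / (n ^ 2 + 1)) := by
          refine Finset.sum_le_sum fun z hz => ?_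
          exact mul_le_mul_of_nonneg_left (lap_gk_le x n hn z) (hv' z (Finset.mem_of_mem_erase hz))
      _ ≤ ∑ z ∈ box x n, v z * (72 / (n ^ 2 + 1)) := by
          refine Finset.sum_le_sum_of_subset_of_nonneg (Finset.erase_subset _ _) ?_
          intro z hz _
          exact mul_nonneg (hv' z hz) (by positivity)
      _ = _ := by rw [← Finset.sum_mul, mul_comm]
  have h3 : v x ≤ (72 / (n ^ 2 + 1)) * ∑ z ∈ box x n, v z := by linarith
  have h4 : ((n : ℝ) ^ 2 + 1) * v x ≤ 72 * ∑ z ∈ box x n, v z := by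
    calc ((n : ℝ) ^ 2 + 1) * v x ≤ (n ^ 2 + 1) * ((72 / (n ^ 2 + 1)) * ∑ z ∈ box x n, v z) := by
          gcongr
      _ = _ := by field_simp
  nlinarith

end Vale.Agent.P155.G
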